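import Vale.Agent.P259.Core

/-!
# P259: the recursion principle of a coherator

A category with objects indexed by globular sums, with a projection to a coherator and lifts over
all lifts of parallel pairs, receives a section of the projection.
-/

universe u₁ u₂ u₃ v₁ v₂ v₃

namespace Vale.Agent.P259.Glob

open CategoryTheory

noncomputable section

attribute [local instance] uliftCategory

section HEqLemmas

variable {A : Type u₁} [Category.{v₁} A] {B : Type u₂} [Category.{v₂} B]

theorem heq_map_of_heq (F : A ⥤ B) {X Y X' Y' : A} (hX : X = X') (hY : Y = Y') {f : X ⟶ Y}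
    {g : X' ⟶ Y'} (h : HEq f g) : HEq (F.map f) (F.map g) := by
  subst hX hY
  rw [eq_of_heq h]

theorem heq_map_functor {F G : A ⥤ B} (h : F = G) {X Y : A} (f : X ⟶ Y) :
    HEq (F.map f) (G.map f) := by
  subst h
  rfl

theorem heq_comp {X Y Z X' Y' Z' : A} (hX : X = X') (hY : Y = Y') (hZ : Z = Z') {f : X ⟶ Y}
    {f' : X' ⟶ Y'} {g : Y ⟶ Z} {g' : Y' ⟶ Z'} (hf : HEq f f') (hg : HEq g g') :
    HEq (f ≫ g) (f' ≫ g') := by
  subst hX hY hZ
  rw [eq_of_heq hf, eq_of_heq hg]

theorem heq_id {X Y : A} (h : X = Y) : HEq (𝟙 X) (𝟙 Y) := by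
  subst h
  rfl

/-- The copy of a morphism between equal objects. -/
def recast {X Y X' Y' : A} (hX : X' = X) (hY : Y = Y') (f : X ⟶ Y) : X' ⟶ Y' :=
  eqToHom hX ≫ f ≫ eqToHom hY

theorem recast_heq {X Y X' Y' : A} (hX : X' = X) (hY : Y = Y') (f : X ⟶ Y) :
    HEq (recast hX hY f) f := by
  subst hX hY
  simp [recast]

theorem functor_ext {F G : A ⥤ B} (ho : ∀ X, F.obj X = G.obj X)
    (hm : ∀ {X Y : A} (f : X ⟶ Y), HEq (F.map f) (G.map f)) : F = G := by
  refine CategoryTheory.Functor.ext ho fun X Y f => ?_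
  exact eq_of_heq ((hm f).trans (recast_heq (ho X) (ho Y).symm (G.map f)).symm)

end HEqLemmas

/-- A category over an extension, with a chosen functor from globular sums. -/
structure Displayed (E : Ext) : Type 2 where
  K : Type 1
  [cat : Category.{0} K]
  ob : Table ⥤ K
  sums : PreservesSums ob
  proj : K ⥤ E.Obj
  proj_ob : ob ⋙ proj = E.i

attribute [instance] Displayed.cat

/-- The object of the projection of a chosen object. -/
theorem Displayed.proj_obj {E : Ext} (X : Displayed E) (T : Table) :
    X.proj.obj (X.ob.obj T) = E.i.obj T :=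
  CategoryTheory.Functor.congr_obj X.proj_ob T

/-- Lifts over all lifts of parallel pairs. -/
def Displayed.HasLifts {E : Ext} (X : Displayed E) : Prop :=
  ∀ {n : ℕ} {T : Table}, T.dim ≤ n + 1 → ∀ (f g : X.ob.obj (disc n) ⟶ X.ob.obj T),
    (∀ j (_ : j + 1 = n) (h : j < n) e, X.ob.map (side e h) ≫ f = X.ob.map (side e h) ≫ g) →
    ∀ h : E.M (disc (n + 1)) T, HEq (E.face false n ≫ h) (X.proj.map f) →
      HEq (E.face true n ≫ h) (X.proj.map g) →
      ∃ k : X.ob.obj (disc (n + 1)) ⟶ X.ob.obj T,
        X.ob.map (side false n.lt_succ_self) ≫ k = f ∧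
        X.ob.map (side true n.lt_succ_self) ≫ k = g ∧ HEq (X.proj.map k) h

variable {C : Coherator} {X : Displayed C.C}

/-- A partial section on a stage. -/
structure StageSection (X : Displayed C.C) (k : ℕ) : Type 1 where
  G : (C.stage k).Obj ⥤ X.K
  ob : (C.stage k).i ⋙ G = X.ob
  proj : G ⋙ X.proj = C.into k

theorem exists_base : Nonempty (StageSection X 0) := by
  classical
  let E0 := C.stage 0
  have := C.zero_full
  have := C.zero_faithful
  let e : Table ≃ E0.Obj := Equiv.ofBijective E0.i.obj E0.obj_bij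
  have he : ∀ U, E0.i.obj (e.symm U) = U := e.apply_symm_apply
  let m : ∀ {U V : E0.Obj}, (U ⟶ V) → (e.symm U ⟶ e.symm V) := fun {U V} f =>
    E0.i.preimage (recast (he U) (he V).symm f)
  have hm : ∀ {U V : E0.Obj} (f : U ⟶ V), HEq (E0.i.map (m f)) f := fun {U V} f =>
    (heq_of_eq (E0.i.map_preimage _)).trans (recast_heq _ _ _)
  let G : E0.Obj ⥤ X.K :=
    { obj := fun U => X.ob.obj (e.symm U)
      map := fun f => X.ob.map (m f)
      map_id := fun U => by
        have h : m (𝟙 U) = 𝟙 _ := E0.i.map_injective (eq_of_heq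
          ((hm (𝟙 U)).trans ((heq_id (he U).symm).trans (heq_of_eq (E0.i.map_id _).symm))))
        rw [h, X.ob.map_id]
      map_comp := fun {U V W} f g => by
        have h : m (f ≫ g) = m f ≫ m g := E0.i.map_injective (eq_of_heq
          ((hm (f ≫ g)).trans ((heq_comp (he U).symm (he V).symm (he W).symm (hm f).symm
            (hm g).symm).trans (heq_of_eq (E0.i.map_comp _ _).symm))))
        rw [h, X.ob.map_comp] }
  have hob : E0.i ⋙ G = X.ob := functor_ext (fun T => congrArg X.ob.obj (e.symm_apply_apply T))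
    fun {S T} f => by
      refine heq_map_of_heq X.ob (e.symm_apply_apply S) (e.symm_apply_apply T) ?_
      have h1 : HEq (E0.i.map (m (E0.i.map f))) (E0.i.map f) := hm _
      have h2 : m (E0.i.map f) =
          recast (e.symm_apply_apply S) (e.symm_apply_apply T).symm f := E0.i.map_injective
        (eq_of_heq (h1.trans (heq_map_of_heq E0.i (e.symm_apply_apply S).symm
          (e.symm_apply_apply T).symm (recast_heq _ _ f).symm)))
      rw [h2]
      exact recast_heq _ _ f
  refine ⟨⟨G, hob, functor_ext (fun U => ?_) fun {U V} f => ?_⟩⟩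
  · exact (X.proj_obj _).trans ((CategoryTheory.Functor.congr_obj (C.into_comm 0) _).symm.trans
      (congrArg (C.into 0).obj (he U)))
  · refine (heq_map_functor X.proj_ob (m f)).trans ((heq_map_functor (C.into_comm 0) (m f)).symm.trans ?_)
    exact heq_map_of_heq (C.into 0) (he U) (he V) (hm f)

theorem exists_step (hX : X.HasLifts) (k : ℕ) (P : StageSection X k) :
    ∃ Q : StageSection X (k + 1), (C.step k).J ⋙ Q.G = P.G := by
  classical
  let A := C.step k
  let E := C.stage k
  let E' := C.stage (k + 1)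
  have hob : ∀ T, P.G.obj (E.i.obj T) = X.ob.obj T := CategoryTheory.Functor.congr_obj P.ob
  have hJ : ∀ T, A.J.obj (E.i.obj T) = E'.i.obj T := CategoryTheory.Functor.congr_obj A.comm
  have hin : ∀ T, (C.into k).obj (E.i.obj T) = C.C.i.obj T :=
    CategoryTheory.Functor.congr_obj (C.into_comm k)
  have hin' : ∀ T, (C.into (k + 1)).obj (E'.i.obj T) = C.C.i.obj T :=
    CategoryTheory.Functor.congr_obj (C.into_comm (k + 1))
  -- the lift over a pair
  have key : ∀ a : A.A, ∃ l : P.G.obj (E.i.obj (disc (a.1.n + 1))) ⟶ P.G.obj (E.i.obj a.1.T),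
      a.1.IsLiftTo P.G l ∧ HEq (X.proj.map l) ((C.into (k + 1)).map (A.lift a)) := by
    intro a
    let f' := recast (hob _).symm (hob _) (P.G.map a.1.f)
    let g' := recast (hob _).symm (hob _) (P.G.map a.1.g)
    have hpar : ∀ j (_ : j + 1 = a.1.n) (h : j < a.1.n) e,
        X.ob.map (side e h) ≫ f' = X.ob.map (side e h) ≫ g' := by
      obtain ⟨⟨n, T, f, g, par, dim⟩, ha⟩ := a
      intro j hj h e
      obtain rfl := hj
      have p := congrArg P.G.map (par e)
      rw [P.G.map_comp, P.G.map_comp] at p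
      have c : ∀ q : E.M (disc (j + 1)) T, HEq (X.ob.map (side e h) ≫
          recast (hob _).symm (hob _) (P.G.map q)) (P.G.map (E.face e j) ≫ P.G.map q) := fun q =>
        heq_comp (hob _).symm (hob _).symm (hob _).symm (heq_map_functor P.ob (side e h)).symm
          (recast_heq _ _ _)
      exact eq_of_heq ((c f).trans ((heq_of_eq p).trans (c g).symm))
    let h' := recast (hin' _).symm (hin' _) ((C.into (k + 1)).map (A.lift a))
    have hside : ∀ (e : Bool) (q : E.M (disc a.1.n) a.1.T),
        HEq (E'.face e a.1.n ≫ A.lift a) (A.J.map q) →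
        HEq (C.C.face e a.1.n ≫ h')
          (X.proj.map (recast (hob _).symm (hob _) (P.G.map q))) := by
      intro e q hq
      refine (heq_comp (hin' _).symm (hin' _).symm (hin' _).symm
        (heq_map_functor (C.into_comm (k + 1)) (side e _)).symm (recast_heq _ _ _)).trans ?_
      refine (heq_of_eq ((C.into (k + 1)).map_comp _ _).symm).trans ?_
      refine (heq_map_of_heq (C.into (k + 1)) (hJ _).symm (hJ _).symm hq).trans ?_
      refine (heq_map_functor (C.into_step k) q).trans ?_
      refine (heq_map_functor P.proj q).symm.trans ?_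
      exact heq_map_of_heq X.proj (hob _) (hob _) (recast_heq _ _ _).symm
    obtain ⟨l, hl0, hl1, hlp⟩ := hX a.1.dim_le f' g' hpar h' (hside false _ (A.lift_src a))
      (hside true _ (A.lift_tgt a))
    refine ⟨recast (hob _) (hob _).symm l, ⟨?_, ?_⟩, ?_⟩
    · exact eq_of_heq ((heq_comp (hob _) (hob _) (hob _) (heq_map_functor P.ob (side false _))
        (recast_heq _ _ _)).trans ((heq_of_eq hl0).trans (recast_heq _ _ _)))
    · exact eq_of_heq ((heq_comp (hob _) (hob _) (hob _) (heq_map_functor P.ob (side true _))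
        (recast_heq _ _ _)).trans ((heq_of_eq hl1).trans (recast_heq _ _ _)))
    · exact (heq_map_of_heq X.proj (hob _) (hob _) (recast_heq _ _ _)).trans
        (hlp.trans (recast_heq _ _ _))
  choose l hl hlp using key
  obtain ⟨G', ⟨hG, hGl⟩, -⟩ := A.universal X.K P.G (P.ob.symm ▸ X.sums) l hl
  have hob' : E'.i ⋙ G' = X.ob := by rw [← A.comm, Functor.assoc, hG]; exact P.ob
  refine ⟨⟨G', hob', ?_⟩, hG⟩
  -- the projection is the canonical one, by uniqueness
  have hsum : PreservesSums (E.i ⋙ (C.into k ⋙ ULift.upFunctor.{0, 0, 1})) := by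
    rw [← Functor.assoc, C.into_comm]
    intro T Z c hc
    exact C.C.sums T Z.down c hc
  have huni := A.universal (ULift.{1} C.C.Obj) (C.into k ⋙ ULift.upFunctor.{0, 0, 1}) hsum
    (fun a => (ULift.upFunctor.{0, 0, 1}).map (recast
      ((CategoryTheory.Functor.congr_obj P.proj _).symm)
      (CategoryTheory.Functor.congr_obj P.proj _) (X.proj.map (l a))))
    (fun a => by
      have main : ∀ (e : Bool) (q : E.M (disc a.1.n) a.1.T),
          P.G.map (E.face e a.1.n) ≫ l a = P.G.map q →
          (C.into k).map (E.face e a.1.n) ≫ recast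
            ((CategoryTheory.Functor.congr_obj P.proj _).symm)
            (CategoryTheory.Functor.congr_obj P.proj _) (X.proj.map (l a)) = (C.into k).map q := by
        intro e q hq
        have hp := CategoryTheory.Functor.congr_obj P.proj
        refine eq_of_heq ((heq_comp (hp _).symm (hp _).symm (hp _).symm
          (heq_map_functor P.proj _).symm (recast_heq _ _ _)).trans ?_)
        refine (heq_of_eq (X.proj.map_comp _ _).symm).trans ?_
        rw [hq]
        exact heq_map_functor P.proj q
      exact ⟨congrArg (ULift.upFunctor.{0, 0, 1}).map (main false _ (hl a).1),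
        congrArg (ULift.upFunctor.{0, 0, 1}).map (main true _ (hl a).2)⟩)
  obtain ⟨F0, -, hF0⟩ := huni
  have h1 := hF0 ((G' ⋙ X.proj) ⋙ ULift.upFunctor) ⟨by
      rw [← Functor.assoc, ← Functor.assoc, hG, P.proj], fun a => heq_map_of_heq ULift.upFunctor
        ((congrArg X.proj.obj (CategoryTheory.Functor.congr_obj hob' _)).trans
          ((X.proj_obj _).trans (hin _).symm))
        ((congrArg X.proj.obj (CategoryTheory.Functor.congr_obj hob' _)).trans
          ((X.proj_obj _).trans (hin _).symm))
        ((heq_map_of_heq X.proj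
          ((CategoryTheory.Functor.congr_obj hob' _).trans (hob _).symm)
          ((CategoryTheory.Functor.congr_obj hob' _).trans (hob _).symm)
          (hGl a)).trans (recast_heq _ _ _).symm)⟩
  have h2 := hF0 (C.into (k + 1) ⋙ ULift.upFunctor) ⟨by
      rw [← Functor.assoc, C.into_step], fun a => heq_map_of_heq ULift.upFunctor
        ((hin' _).trans (hin _).symm) ((hin' _).trans (hin _).symm)
        ((hlp a).symm.trans (recast_heq _ _ _).symm)⟩
  have h3 := congrArg (fun F => F ⋙ ULift.downFunctor) (h1.trans h2.symm)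
  exact h3

/-- The recursion principle, over the coherator. -/
theorem exists_section (hX : X.HasLifts) :
    ∃ G : C.C.Obj ⥤ X.K, C.C.i ⋙ G = X.ob ∧ G ⋙ X.proj = 𝟭 C.C.Obj := by
  classical
  let next : ∀ k, StageSection X k → StageSection X (k + 1) := fun k P =>
    (exists_step hX k P).choose
  let P : ∀ k, StageSection X k := fun k => Nat.rec exists_base.some next k
  have hP : ∀ k, (C.step k).J ⋙ (P (k + 1)).G = (P k).G := fun k =>
    (exists_step hX k (P k)).choose_spec
  obtain ⟨G, hG, -⟩ := C.colimit X.K (fun k => (P k).G) hP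
  refine ⟨G, ?_, ?_⟩
  · rw [← C.into_comm 0, Functor.assoc, hG 0]
    exact (P 0).ob
  · obtain ⟨F0, -, hF0⟩ := C.colimit (ULift.{1} C.C.Obj)
      (fun k => C.into k ⋙ ULift.upFunctor.{0, 0, 1})
      (fun k => by rw [← Functor.assoc, C.into_step])
    have h1 := hF0 ((G ⋙ X.proj) ⋙ ULift.upFunctor) (fun k => by
      rw [← Functor.assoc, ← Functor.assoc, hG, (P k).proj])
    have h2 := hF0 (𝟭 C.C.Obj ⋙ ULift.upFunctor) (fun k => rfl)
    exact congrArg (fun F => F ⋙ ULift.downFunctor) (h1.trans h2.symm)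

/-- The recursion principle: every parallel pair lifts, hence a functor out of the coherator. -/
theorem exists_functor {K : Type 1} [Category.{0} K] (ob : Table ⥤ K) (hs : PreservesSums ob)
    (hl : ∀ {n : ℕ} {T : Table}, T.dim ≤ n + 1 → ∀ (f g : ob.obj (disc n) ⟶ ob.obj T),
      (∀ j (_ : j + 1 = n) (h : j < n) e, ob.map (side e h) ≫ f = ob.map (side e h) ≫ g) →
      ∃ k : ob.obj (disc (n + 1)) ⟶ ob.obj T,
        ob.map (side false n.lt_succ_self) ≫ k = f ∧ ob.map (side true n.lt_succ_self) ≫ k = g) :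
    ∃ G : C.C.Obj ⥤ K, C.C.i ⋙ G = ob := by
  let Y : Displayed C.C :=
    { K := K × C.C.Obj
      ob := ob.prod' C.C.i
      sums := fun T Z c hc => by
        obtain ⟨d, hd, hu⟩ := hs T Z.1 (fun p => (c p).1) (fun p => congrArg Prod.fst (hc p))
        obtain ⟨d', hd', hu'⟩ := C.C.sums T Z.2 (fun p => (c p).2)
          (fun p => congrArg Prod.snd (hc p))
        exact ⟨(d, d'), fun p => Prod.ext (hd p) (hd' p), fun q hq =>
          Prod.ext (hu q.1 fun p => congrArg Prod.fst (hq p))
            (hu' q.2 fun p => congrArg Prod.snd (hq p))⟩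
      proj := CategoryTheory.Prod.snd K C.C.Obj
      proj_ob := rfl }
  have hY : Y.HasLifts := by
    intro n T hT f g hpar h hf hg
    obtain ⟨k, hk0, hk1⟩ := hl hT f.1 g.1 fun j hj h e => congrArg Prod.fst (hpar j hj h e)
    exact ⟨(k, h), Prod.ext hk0 (eq_of_heq hf), Prod.ext hk1 (eq_of_heq hg), HEq.rfl⟩
  obtain ⟨G, hG, -⟩ := exists_section hY
  refine ⟨G ⋙ CategoryTheory.Prod.fst K C.C.Obj, ?_⟩
  rw [← Functor.assoc, hG]
  rfl

end

end Vale.Agent.P259.Glob
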