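import Vale.Agent.P259.Core

/-!
# P259: maps of globes and the cells of globular sums
-/

namespace Vale.Agent.P259.Glob

open CategoryTheory Opposite

noncomputable section

theorem face_comp {j i k : ℕ} (e e' : Bool) (h : j < i) (h' : i < k) :
    Globe.face e h ≫ Globe.face e' h' = Globe.face e (h.trans h') :=
  rfl

/-- A map of globes is an identity or a face. -/
theorem globe_hom_cases {j i : ℕ} (f : (⟨j⟩ : Globe) ⟶ ⟨i⟩) :
    (∃ h : j = i, f = eqToHom (congrArg Globe.mk h)) ∨ ∃ (e : Bool) (h : j < i), f = Globe.face e h := by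
  obtain ⟨_ | e, hf⟩ := f
  · obtain rfl : j = i := hf
    exact Or.inl ⟨rfl, rfl⟩
  · exact Or.inr ⟨e, hf, rfl⟩

theorem globe_hom_self {j : ℕ} (f : (⟨j⟩ : Globe) ⟶ ⟨j⟩) : f = 𝟙 _ := by
  rcases globe_hom_cases f with ⟨h, rfl⟩ | ⟨e, h, rfl⟩
  · rfl
  · exact absurd h (lt_irrefl j)

/-- Extensionality for maps of globular sums. -/
theorem hom_ext_pre {S T : Table} {f g : S ⟶ T}
    (h : ∀ (n : Globe) (c : S.Pre n),
      f.hom.app (op n) (Quot.mk _ c) = g.hom.app (op n) (Quot.mk _ c)) : f = g := by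
  refine InducedCategory.hom_ext (NatTrans.ext (funext fun n => ?_))
  refine ConcreteCategory.hom_ext _ _ fun c => ?_
  induction c using Quot.ind with
  | _ c => exact h n.unop c

theorem side_comp {j i k : ℕ} (e e' : Bool) (h : j < i) (h' : i < k) :
    side e h ≫ side e' h' = side e (h.trans h') :=
  hom_ext_pre fun _ c =>
    congrArg (Quot.mk _) (Sigma.ext rfl (heq_of_eq (Category.assoc c.2 _ _)))

/-- Every side is iterated from adjacent sides. -/
theorem side_succ {j i : ℕ} (e : Bool) (h : j < i) :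
    side e (h.trans i.lt_succ_self) = side e h ≫ side false i.lt_succ_self :=
  (side_comp e false h i.lt_succ_self).symm

/-- The top cell of a disc. -/
def topCell (n : ℕ) : (disc n).toGSet.obj (op ⟨n⟩) := Quot.mk _ ⟨0, 𝟙 _⟩

theorem disc_pre_eq {n : ℕ} {m : Globe} (c : (disc n).Pre m) :
    c = (⟨0, c.2⟩ : (disc n).Pre m) := by
  obtain ⟨p, g⟩ := c
  obtain rfl : p = 0 := Fin.ext (Nat.lt_one_iff.1 p.isLt)
  rfl

/-- Two maps out of a disc agreeing on the top cell are equal. -/
theorem disc_hom_ext {n : ℕ} {T : Table} {f g : disc n ⟶ T}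
    (h : f.hom.app _ (topCell n) = g.hom.app _ (topCell n)) : f = g := by
  refine hom_ext_pre fun m c => ?_
  have hc : (Quot.mk _ c : (disc n).toGSet.obj (op m)) =
      (disc n).toGSet.map c.2.op (topCell n) := by
    refine congrArg (Quot.mk _) ?_
    conv_lhs => rw [disc_pre_eq c]
    exact Sigma.ext rfl (heq_of_eq (Category.comp_id c.2).symm)
  rw [hc]
  exact (ConcreteCategory.congr_hom (f.hom.naturality c.2.op) (topCell n)).trans
    ((congrArg _ h).trans (ConcreteCategory.congr_hom (g.hom.naturality c.2.op) (topCell n)).symm)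

/-- The map out of a disc classifying a cell. -/
def ofCell {n : ℕ} (T : Table) (x : T.toGSet.obj (op ⟨n⟩)) : disc n ⟶ T :=
  Table.homMk
    { app := fun m => TypeCat.ofHom (Quot.lift (fun c : (disc n).Pre m.unop => T.toGSet.map c.2.op x)
        (fun c d h => (disc_rel_false n m.unop c d h).elim))
      naturality := fun a b f => by
        refine ConcreteCategory.hom_ext _ _ fun c => ?_
        induction c using Quot.ind with
        | _ c =>
          show T.toGSet.map (f.unop ≫ c.2).op x = T.toGSet.map f (T.toGSet.map c.2.op x)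
          rw [op_comp, Functor.map_comp]
          rfl }

theorem ofCell_topCell {n : ℕ} (T : Table) (x : T.toGSet.obj (op ⟨n⟩)) :
    (ofCell T x).hom.app _ (topCell n) = x := by
  show T.toGSet.map (𝟙 (⟨n⟩ : Globe)).op x = x
  rw [op_id, T.toGSet.map_id]
  rfl

theorem ofCell_self {n : ℕ} {T : Table} (f : disc n ⟶ T) :
    ofCell T (f.hom.app _ (topCell n)) = f :=
  disc_hom_ext (ofCell_topCell T _)

/-- A map out of a disc is an iterated side of a position, or a position. -/
theorem disc_hom_cases {n : ℕ} {T : Table} (g : disc n ⟶ T) :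
    (∃ (p : Fin (T.len + 1)) (h : n = T.top p), g = eqToHom (congrArg disc h) ≫ incl T p) ∨
      ∃ (p : Fin (T.len + 1)) (e : Bool) (h : n < T.top p), g = side e h ≫ incl T p := by
  obtain ⟨⟨p, f⟩, hf⟩ := Quot.exists_rep (g.hom.app _ (topCell n))
  rcases globe_hom_cases f with ⟨h, rfl⟩ | ⟨e, h, rfl⟩
  · refine Or.inl ⟨p, h, disc_hom_ext ?_⟩
    rw [← hf]
    subst h
    rfl
  · refine Or.inr ⟨p, e, h, disc_hom_ext ?_⟩
    rw [← hf]
    exact congrArg (Quot.mk _) (Sigma.ext rfl (heq_of_eq (Category.id_comp _).symm))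

end

end Vale.Agent.P259.Glob
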