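import Vale.Agent.P259.Glob.Paths
import Vale.Agent.P259.Elem.EckmannHilton
import Vale.Agent.P259.Elem.Cocycle

/-!
# P259: one connected models with acyclic categories of elements are contractible
-/

namespace Vale.Agent.P259

open CategoryTheory Opposite

noncomputable section

variable {E : Ext}

/-- The maps between two points of a one connected acyclic model form an acyclic model. -/
theorem Ext.hom_exact (hE : E.Contractible) (X : E.Gpd) (h1 : E.OneConn X.obj)
    (hA : ∀ k, (Cat.chains (E.tabPsh X.obj)).Exact k) : ∀ (k : ℕ) (p q : E.cells X.obj 0),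
    (Cat.chains (E.suspData.homPsh (E.tabPsh X.obj) p q)).Exact k := by
  intro k
  induction k using Nat.strong_induction_on with
  | h k ih =>
    intro p q
    have hX := E.glues_tabPsh X
    have hS := Ext.simplyConn h1
    have hY := Ext.yonAcyclic hE
    have hb := Elem.Susp.suspMap_bijective hX p E.edgeShape (Ext.edges hE) hS hY k
      (fun a j hj => ih j hj p a)
    have h0 : Subsingleton ((Cat.chains (E.suspData.homPsh (E.tabPsh X.obj) p p)).H k) := by
      haveI := (Cat.Cx.exact_iff_subsingleton _ _).1 (hA (k + 1))
      exact hb.1.subsingleton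
    obtain ⟨θ, hθ, -, -⟩ :=
      (Elem.Susp.fibreSys hX hY p k).exists_trivialisation (Ext.edges hE) hS hX p
    have hp := Elem.Susp.fibreMap_bijective hX p hY (Elem.pointEl (σ := E.suspData) p) p
      (Elem.Susp.base_first (σ := E.suspData) (X := E.tabPsh X.obj) p) k
    have hq := Elem.Susp.fibreMap_bijective hX p hY (Elem.pointEl (σ := E.suspData) q) q
      (Elem.Susp.base_first (σ := E.suspData) (X := E.tabPsh X.obj) q) k
    haveI : Subsingleton ((Elem.Susp.fibreSys hX hY p k).obj (Elem.pointEl (σ := E.suspData) p)) := hp.2.subsingleton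
    haveI : Subsingleton ((Elem.Susp.fibreSys hX hY p k).obj (Elem.pointEl (σ := E.suspData) q)) :=
      (hθ (Elem.pointEl (σ := E.suspData) q)).1.subsingleton
    exact (Cat.Cx.exact_iff_subsingleton _ k).2 hq.1.subsingleton

/-- The maps between two points of a one connected acyclic model are one connected. -/
theorem Ext.hom_oneConn (hE : E.Contractible) (X : E.Gpd) (h1 : E.OneConn X.obj)
    (hA : ∀ k, (Cat.chains (E.tabPsh X.obj)).Exact k) (p q : E.cells X.obj 0) :
    E.up.OneConn (E.homGpd X p q).obj := by
  have hconn : E.up.Conn (E.homUp X.obj p q) := by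
    refine ⟨?_, fun s t => E.linked_up (h1.2 _ _ (E.par_down (show E.up.Par _ s t from trivial)))⟩
    obtain ⟨c, c1, c2⟩ := h1.1.2 p q
    exact ⟨E.upCellOf c c1 c2⟩
  refine ⟨hconn, fun s t hst => ?_⟩
  have hU : E.up.Contractible := E.up_contractible hE
  have hF := Ext.hFill hE
  have hG := Ext.hFill hU
  let u := E.up.edgeOfCell s rfl rfl
  let v := E.up.edgeOfCell (a := E.up.act _ (E.up.face false 0) s)
    (b := E.up.act _ (E.up.face true 0) s) t (hst false).symm (hst true).symm
  have hc : u.cls = v.cls :=
    Elem.cls_eq_of_exact hG (X := E.up.tabPsh (E.homUp X.obj p q))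
      (E.up.glues_tabPsh (E.homGpd X p q)) (fun a b => (hconn.2 a b).nonempty_edge)
      (fun a f g => Elem.loops_commute (σ := E.suspData) (τ := E.up.suspData)
        (E.glues_tabPsh X) (Ext.yonThin hE) hG hF (a := p) (b := q)
        (E.up.glues_tabPsh (E.homGpd X p q)) a f g)
      (Ext.hom_exact hE X h1 hA 2 p q) u v
  have h := Ext.linked_of_cls hU (E.homGpd X p q) u v hc
  have es : E.up.act _ (E.up.i.map (discSusp 0)) u.1 = s := E.up.downCell_upCellOf s rfl rfl
  have et : E.up.act _ (E.up.i.map (discSusp 0)) v.1 = t :=
    E.up.downCell_upCellOf t (hst false).symm (hst true).symm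
  rwa [es, et] at h

theorem Ext.linked_of_par : ∀ (n : ℕ) (E : Ext), E.Contractible → ∀ X : E.Gpd, E.OneConn X.obj →
    (∀ k, (Cat.chains (E.tabPsh X.obj)).Exact k) →
    ∀ a b : E.cells X.obj n, E.Par X.obj a b → E.Linked X.obj a b := by
  intro n
  induction n with
  | zero => exact fun E _ X h1 _ a b _ => h1.1.2 a b
  | succ n ih =>
    intro E hE X h1 hA a b hab
    have hk : ∀ e, E.act X.obj (E.i.map (side e (Nat.succ_pos n))) b
        = E.act X.obj (E.i.map (side e (Nat.succ_pos n))) a := by
      intro e
      cases n with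
      | zero => exact (hab e).symm
      | succ n =>
        rw [← side_comp_side e e (Nat.succ_pos n) (Nat.lt_succ_self (n + 1)), E.i.map_comp,
          E.act_comp, E.act_comp]
        exact congrArg _ (hab e).symm
    let p := E.act X.obj (E.i.map (side false (Nat.succ_pos n))) a
    let q := E.act X.obj (E.i.map (side true (Nat.succ_pos n))) a
    let s := E.upCellOf (a := p) (b := q) a rfl rfl
    let t := E.upCellOf (a := p) (b := q) b (hk false) (hk true)
    have es : E.downCell s = a := E.downCell_upCellOf a rfl rfl
    have et : E.downCell t = b := E.downCell_upCellOf b (hk false) (hk true)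
    have hp : E.up.Par (E.homUp X.obj p q) s t := E.par_up (by rw [es, et]; exact hab)
    have h := E.linked_down (ih E.up (E.up_contractible hE) (E.homGpd X p q)
      (Ext.hom_oneConn hE X h1 hA p q) (fun k => Ext.hom_exact hE X h1 hA k p q) s t hp)
    rwa [es, et] at h

/-- **One connected models with acyclic categories of elements are contractible.** -/
theorem ctrOfAcyclic : Spec.CtrOfAcyclic := fun E hE X h1 hA =>
  ⟨h1.1.1, fun {n} a b => Ext.linked_of_par n E hE X h1
    (fun k => (E.exact_el_iff X.obj k).1 (hA k)) a b⟩

end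

end Vale.Agent.P259
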