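import Vale.Agent.P259.Core

/-!
# P259: maps out of discs are cells; vertices and poles
-/

namespace Vale.Agent.P259

open CategoryTheory Opposite

noncomputable section

/-- The cells of a globular sum. -/
abbrev Table.Cell (T : Table) (n : ℕ) : Type := Quot (T.Rel ⟨n⟩)

/-- The underlying map on cells. -/
def Table.mapCell {S T : Table} (f : S ⟶ T) {n : ℕ} (c : S.Cell n) : T.Cell n :=
  (f.hom.app (op ⟨n⟩)).hom c

theorem Table.homExtCell {S T : Table} {f g : S ⟶ T}
    (h : ∀ (n : ℕ) (c : S.Pre ⟨n⟩), Table.mapCell f (Quot.mk _ c) = Table.mapCell g (Quot.mk _ c)) :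
    f = g := by
  refine InducedCategory.hom_ext (NatTrans.ext (funext fun n => ConcreteCategory.hom_ext _ _ fun c => ?_))
  obtain ⟨⟨n⟩⟩ := n
  induction c using Quot.ind with
  | _ c => exact h n c

theorem Table.mapCell_comp {R S T : Table} (f : R ⟶ S) (g : S ⟶ T) {n : ℕ} (c : R.Cell n) :
    Table.mapCell (f ≫ g) c = Table.mapCell g (Table.mapCell f c) :=
  rfl

theorem Table.mapCell_id {S : Table} {n : ℕ} (c : S.Cell n) : Table.mapCell (𝟙 S) c = c :=
  rfl

/-- The action of a map of globes on cells. -/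
def Table.actCell (T : Table) {n m : ℕ} (g : (⟨m⟩ : Globe) ⟶ ⟨n⟩) (c : T.Cell n) : T.Cell m :=
  Quot.map (T.preMap g) (T.rel_map g) c

theorem Table.mapCell_act {S T : Table} (f : S ⟶ T) {n m : ℕ} (g : (⟨m⟩ : Globe) ⟶ ⟨n⟩)
    (c : S.Cell n) : Table.mapCell f (S.actCell g c) = T.actCell g (Table.mapCell f c) :=
  ConcreteCategory.congr_hom (f.hom.naturality g.op) c

/-- The map out of a disc given by a cell. -/
def Table.ofCell (T : Table) {n : ℕ} (c : T.Cell n) : disc n ⟶ T :=
  Table.homMk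
    { app := fun m => TypeCat.ofHom (Quot.lift (fun d => T.actCell (m := m.unop.dim) d.2 c)
        fun a b h => (disc_rel_false n m.unop a b h).elim)
      naturality := fun a b f => by
        refine ConcreteCategory.hom_ext _ _ fun d => ?_
        induction d using Quot.ind with
        | _ d =>
          induction c using Quot.ind with
          | _ c =>
            exact congrArg (Quot.mk _) (Sigma.ext rfl (heq_of_eq (Category.assoc f.unop d.2 c.2))) }

theorem Table.mapCell_incl (T : Table) (p : Fin (T.len + 1)) {n : ℕ}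
    (g : (⟨n⟩ : Globe) ⟶ ⟨T.top p⟩) :
    Table.mapCell (incl T p) (Quot.mk _ ⟨0, g⟩) = Quot.mk _ ⟨p, g⟩ :=
  rfl

theorem Table.disc_ext {T : Table} {n : ℕ} {f g : disc n ⟶ T}
    (h : Table.mapCell f (Quot.mk _ ⟨0, 𝟙 _⟩) = Table.mapCell g (Quot.mk _ ⟨0, 𝟙 _⟩)) : f = g := by
  refine Table.homExtCell fun m c => ?_
  obtain ⟨p, γ⟩ := c
  have hp : p = 0 := Fin.fin_one_eq_zero p
  subst hp
  have e : (Quot.mk _ ⟨0, γ⟩ : (disc n).Cell m)
      = (disc n).actCell γ (Quot.mk _ ⟨0, 𝟙 _⟩) :=
    congrArg (Quot.mk _) (Sigma.ext rfl (heq_of_eq (Category.comp_id γ).symm))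
  rw [e, Table.mapCell_act, Table.mapCell_act, h]

theorem Table.ofCell_top (T : Table) {n : ℕ} (c : T.Cell n) :
    Table.mapCell (T.ofCell c) (Quot.mk _ ⟨0, 𝟙 _⟩) = c := by
  induction c using Quot.ind with
  | _ c => exact congrArg (Quot.mk _) (Sigma.ext rfl (heq_of_eq (Category.id_comp c.2)))

/-- A map into a globe of positive dimension from the point. -/
def Globe.pt (e : Bool) {k : ℕ} (h : 0 < k) : (⟨0⟩ : Globe) ⟶ ⟨k⟩ := Globe.face e h

/-- The initial map from the point into a globe. -/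
def Globe.vertex (k : ℕ) : (⟨0⟩ : Globe) ⟶ ⟨k⟩ :=
  if h : k = 0 then ⟨none, h.symm⟩ else ⟨some false, Nat.pos_of_ne_zero h⟩

/-- The initial vertex of a globular sum. -/
def Table.vertex (T : Table) : disc 0 ⟶ T := T.ofCell (Quot.mk _ ⟨0, Globe.vertex (T.top 0)⟩)

theorem Table.vertex_disc_zero : (disc 0).vertex = 𝟙 (disc 0) :=
  Table.disc_ext ((Table.ofCell_top _ _).trans rfl)

/-- A side of dimension zero does not depend on the position. -/
theorem Table.point_eq_zero (T : Table) (hb : ∀ p, 0 < T.bot p) (e : Bool)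
    (p : Fin (T.len + 1)) (h : 0 < T.top p) (h0 : 0 < T.top 0) :
    (Quot.mk _ ⟨p, Globe.pt e h⟩ : T.Cell 0) = Quot.mk _ ⟨0, Globe.pt e h0⟩ := by
  induction p using Fin.induction with
  | zero => rfl
  | succ p ih =>
      refine Eq.trans ?_ (ih (lt_trans (hb p) (T.lt_left p)))
      exact (Quot.sound (Table.Rel.glue p (Globe.pt e (hb p)))).symm

end

end Vale.Agent.P259
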