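import Vale.Agent.P259.Glob.Susp

/-!
# P259: the extension one level up, and gluing of a suspension with a globular sum
-/

namespace Vale.Agent.P259

open CategoryTheory Opposite

noncomputable section

/-- A disc inclusion, as a map of the extension. -/
abbrev Ext.inc (E : Ext) (T : Table) (p : Fin (T.len + 1)) : E.M (disc (T.top p)) T :=
  E.i.map (incl T p)

theorem Ext.hom_ext (E : Ext) {T : Table} {Z : E.Obj} {k k' : E.i.obj T ⟶ Z}
    (h : ∀ p, E.inc T p ≫ k = E.inc T p ≫ k') : k = k' := by
  have glue : ∀ (q : Fin T.len), side true (T.lt_left q) ≫ incl T q.castSucc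
      = side false (T.lt_right q) ≫ incl T q.succ := fun q => Table.disc_ext
    (Quot.sound (Table.Rel.glue q (𝟙 _)))
  obtain ⟨d, -, hu⟩ := E.sums T Z (fun p => E.inc T p ≫ k) fun q => by
    rw [← Category.assoc, ← Category.assoc, ← E.i.map_comp, ← E.i.map_comp, glue]
  exact (hu k fun p => rfl).trans (hu k' fun p => (h p).symm).symm

theorem Ext.exists_desc (E : Ext) (T : Table) {Z : E.Obj}
    (f : ∀ p, E.i.obj (disc (T.top p)) ⟶ Z)
    (hf : ∀ q : Fin T.len, E.i.map (side true (T.lt_left q)) ≫ f q.castSucc
      = E.i.map (side false (T.lt_right q)) ≫ f q.succ) :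
    ∃ k : E.i.obj T ⟶ Z, ∀ p, E.inc T p ≫ k = f p :=
  (E.sums T Z f hf).exists

/-- The pole of a suspension, in the extension. -/
def Ext.pole (E : Ext) (T : Table) (e : Bool) : E.M (disc 0) T.susp := E.i.map (T.pole e)

/-- The initial vertex, in the extension. -/
def Ext.v0 (E : Ext) (T : Table) : E.M (disc 0) T := E.i.map T.vertex

theorem Ext.pole_map (E : Ext) {S T : Table} (f : S ⟶ T) (e : Bool) :
    E.pole S e ≫ E.i.map (Table.suspMap f) = E.pole T e := by
  rw [Ext.pole, Ext.pole, ← E.i.map_comp, Table.pole_suspMap]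

/-- The objects of the extension one level up. -/
structure Ext.Up (E : Ext) : Type where
  T : Table

/-- Maps one level up: maps of suspensions fixing the poles. -/
@[ext]
structure Ext.Up.Hom {E : Ext} (S T : E.Up) : Type where
  h : E.M S.T.susp T.T.susp
  pole : ∀ e, E.pole S.T e ≫ h = E.pole T.T e

instance Ext.Up.category (E : Ext) : Category E.Up where
  Hom := Ext.Up.Hom
  id S := ⟨𝟙 _, fun e => Category.comp_id _⟩
  comp f g := ⟨f.h ≫ g.h, fun e => by rw [← Category.assoc, f.pole, g.pole]⟩
  id_comp f := Ext.Up.Hom.ext (Category.id_comp _)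
  comp_id f := Ext.Up.Hom.ext (Category.comp_id _)
  assoc f g h := Ext.Up.Hom.ext (Category.assoc _ _ _)

/-- Globular sums one level up. -/
def Ext.upFunctor (E : Ext) : Table ⥤ E.Up where
  obj T := ⟨T⟩
  map f := ⟨E.i.map (Table.suspMap f), E.pole_map f⟩
  map_id T := Ext.Up.Hom.ext ((congrArg E.i.map (Table.suspFunctor.map_id T)).trans (E.i.map_id _))
  map_comp f g := Ext.Up.Hom.ext
    ((congrArg E.i.map (Table.suspFunctor.map_comp f g)).trans (E.i.map_comp _ _))

/-- Transport a family out of suspended discs to one out of discs. -/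
theorem Ext.upFunctor_sums (E : Ext) : PreservesSums E.upFunctor := by
  intro T Z f hf
  let f' : ∀ p, E.i.obj (disc (T.susp.top p)) ⟶ E.i.obj Z.T.susp :=
    fun p => E.i.map (discSusp (T.top p)) ≫ (f p).h
  have hf' : ∀ q : Fin T.susp.len, E.i.map (side true (T.susp.lt_left q)) ≫ f' q.castSucc
      = E.i.map (side false (T.susp.lt_right q)) ≫ f' q.succ := by
    intro q
    have h := congrArg (fun m => E.i.map (discSusp (T.bot q)) ≫ m)
      (congrArg Ext.Up.Hom.h (hf q))
    have key : ∀ (e : Bool) (j i : ℕ) (hji : j < i) (g : E.i.obj (disc i).susp ⟶ E.i.obj Z.T.susp),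
        E.i.map (discSusp j) ≫ E.i.map (Table.suspMap (side e hji)) ≫ g
          = E.i.map (side e (Nat.succ_lt_succ hji)) ≫ E.i.map (discSusp i) ≫ g := by
      intro e j i hji g
      rw [← Category.assoc, ← E.i.map_comp, discSusp_side, E.i.map_comp, Category.assoc]
    exact ((key _ _ _ _ _).symm.trans h).trans (key _ _ _ _ _)
  obtain ⟨k, hk⟩ := E.exists_desc T.susp f' hf'
  have hpole : ∀ e, E.pole T e ≫ k = E.pole Z.T e := by
    intro e
    have h1 : E.pole T e = E.i.map (side e (Nat.succ_pos (T.top 0))) ≫ E.inc T.susp 0 := by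
      rw [Ext.pole, Ext.inc, ← T.pole_eq e 0]
      exact E.i.map_comp _ _
    have h2 : side e (Nat.succ_pos (T.top 0)) ≫ discSusp (T.top 0) = (disc (T.top 0)).pole e :=
      Table.disc_ext rfl
    rw [h1, Category.assoc]
    refine (congrArg (fun m => E.i.map (side e (Nat.succ_pos (T.top 0))) ≫ m) (hk 0)).trans ?_
    refine ((Category.assoc _ _ _).symm.trans ?_).trans ((f 0).pole e)
    exact congrArg (fun m => m ≫ (f 0).h) ((E.i.map_comp _ _).symm.trans (congrArg E.i.map h2))
  have hinc : ∀ (k' : E.M T.susp Z.T.susp) p, E.i.map (Table.suspMap (incl T p)) ≫ k'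
      = E.i.map (suspDisc (T.top p)) ≫ E.inc T.susp p ≫ k' := by
    intro k' p
    refine Eq.trans ?_ (Category.assoc _ _ _)
    refine congrArg (fun m => m ≫ k') ?_
    refine Eq.trans ?_ (E.i.map_comp _ _)
    refine congrArg E.i.map ?_
    rw [← discSusp_incl, ← Category.assoc, suspDisc_discSusp, Category.id_comp]
  refine ⟨⟨k, hpole⟩, fun p => Ext.Up.Hom.ext ?_, fun k' hk' => Ext.Up.Hom.ext (E.hom_ext fun p => ?_)⟩
  · refine (hinc k p).trans ((congrArg (fun m => E.i.map (suspDisc (T.top p)) ≫ m) (hk p)).trans ?_)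
    refine (Category.assoc _ _ _).symm.trans ?_
    refine (congrArg (fun m => m ≫ (f p).h) ?_).trans (Category.id_comp _)
    exact ((E.i.map_comp _ _).symm.trans (congrArg E.i.map (suspDisc_discSusp _))).trans (E.i.map_id _)
  · refine Eq.trans ?_ (hk p).symm
    refine Eq.trans ?_ (congrArg (fun m => E.i.map (discSusp (T.top p)) ≫ m)
      (congrArg Ext.Up.Hom.h (hk' p)))
    refine Eq.trans ?_ (Category.assoc _ _ _)
    refine congrArg (fun m => m ≫ k'.h) ?_
    exact (congrArg E.i.map (discSusp_incl T p).symm).trans (E.i.map_comp _ _)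

/-- The extension one level up. -/
def Ext.up (E : Ext) : Ext where
  Obj := E.Up
  i := E.upFunctor
  obj_bij := ⟨fun _ _ h => congrArg Ext.Up.T h, fun U => ⟨U.T, rfl⟩⟩
  sums := E.upFunctor_sums

/-- The table of `Σ S + T`, for `T` of positive dimension at the start. -/
def Table.join (S T : Table) (hT : 0 < T.top 0) : Table where
  len := S.len + 1 + T.len
  top := Fin.append (m := S.len + 1) (n := T.len + 1) S.susp.top T.top
  bot := Fin.append (m := S.len + 1) (n := T.len) (Fin.snoc S.susp.bot 0) T.bot
  lt_left p := by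
    refine Fin.addCases (m := S.len + 1) (n := T.len) (fun i => ?_) (fun i => ?_) p
    · rw [Fin.append_left, show (Fin.castAdd T.len i).castSucc = Fin.castAdd (T.len + 1) i from rfl,
        Fin.append_left]
      induction i using Fin.lastCases with
      | last =>
        rw [Fin.snoc_last]
        exact Nat.succ_pos _
      | cast j =>
        rw [Fin.snoc_castSucc]
        exact S.susp.lt_left j
    · rw [Fin.append_right, show (Fin.natAdd (S.len + 1) i).castSucc
        = Fin.natAdd (S.len + 1) i.castSucc from rfl, Fin.append_right]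
      exact T.lt_left i
  lt_right p := by
    refine Fin.addCases (m := S.len + 1) (n := T.len) (fun i => ?_) (fun i => ?_) p
    · rw [Fin.append_left]
      induction i using Fin.lastCases with
      | last =>
        rw [Fin.snoc_last, show (Fin.castAdd T.len (Fin.last S.len)).succ
          = Fin.natAdd (S.len + 1) (0 : Fin (T.len + 1)) from Fin.ext (by simp), Fin.append_right]
        exact hT
      | cast j =>
        rw [Fin.snoc_castSucc, show (Fin.castAdd T.len j.castSucc).succ
          = Fin.castAdd (T.len + 1) j.succ from Fin.ext (by simp), Fin.append_left]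
        exact S.susp.lt_right j
    · rw [Fin.append_right, show (Fin.natAdd (S.len + 1) i).succ
        = Fin.natAdd (S.len + 1) i.succ from Fin.ext (by simp [Nat.add_assoc]), Fin.append_right]
      exact T.lt_right i

end

end Vale.Agent.P259
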