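import Vale.Agent.P259.Elem.Core
import Vale.Agent.P259.Glob.Ext

/-!
# P259: the suspension structure of an extension
-/

namespace Vale.Agent.P259

open CategoryTheory Opposite

noncomputable section

/-- The index of an object. -/
def Ext.tab (E : Ext) (A : E.Obj) : Table := (E.obj_bij.2 A).choose

theorem Ext.tab_spec (E : Ext) (A : E.Obj) : E.i.obj (E.tab A) = A := (E.obj_bij.2 A).choose_spec

/-- The objects of the extension indexed by tables. -/
structure Ext.Tab (E : Ext) : Type where
  T : Table

instance Ext.Tab.category (E : Ext) : Category E.Tab :=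
  InducedCategory.instCategory (F := fun T : E.Tab => E.i.obj T.T)

/-- A map between indexed objects. -/
abbrev Ext.Tab.mk' {E : Ext} {S T : E.Tab} (f : E.M S.T T.T) : S ⟶ T := InducedCategory.homMk f

/-- The starting point of a globular sum that is a single point. -/
def Table.toDiscZero (T : Table) (h : ¬ 0 < T.top 0) : T ⟶ disc 0 :=
  Table.homOfPre (fun n d => ⟨0, d.2 ≫ ⟨none, by
      obtain ⟨p, γ⟩ := d
      have hl : T.len = 0 := by
        by_contra hl
        have := T.lt_left ⟨0, Nat.pos_of_ne_zero hl⟩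
        exact h (lt_of_le_of_lt (Nat.zero_le _) (by simpa using this))
      have hp : p = 0 := Fin.ext (by have := p.2; omega)
      subst hp
      exact Nat.eq_zero_of_not_pos h⟩⟩)
    (fun n c d hr => by
      cases hr with
      | glue p g =>
        exact absurd (lt_of_le_of_lt (Nat.zero_le _) (T.lt_left p)) (by
          have hl : T.len = 0 := by
            by_contra hl
            have := T.lt_left ⟨0, Nat.pos_of_ne_zero hl⟩
            exact h (lt_of_le_of_lt (Nat.zero_le _) (by simpa using this))
          exact absurd p.2 (by omega)))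
    (fun n m f c => Sigma.ext rfl (heq_of_eq (Category.assoc f c.2 _)))

theorem Table.len_eq_zero (T : Table) (h : ¬ 0 < T.top 0) : T.len = 0 := by
  by_contra hl
  have := T.lt_left ⟨0, Nat.pos_of_ne_zero hl⟩
  exact h (lt_of_le_of_lt (Nat.zero_le _) (by simpa using this))

theorem Table.vertex_toDiscZero (T : Table) (h : ¬ 0 < T.top 0) :
    T.vertex ≫ T.toDiscZero h = 𝟙 _ := by
  refine Table.disc_ext ?_
  refine (congrArg (fun c => Table.mapCell (T.toDiscZero h) (n := 0) c)
    (Table.ofCell_top T (Quot.mk _ ⟨0, Globe.vertex (T.top 0)⟩))).trans ?_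
  refine congrArg (Quot.mk _) (Sigma.ext rfl (heq_of_eq ?_))
  refine Globe.Hom.ext ?_
  show (Globe.compHom (Globe.vertex (T.top 0)) _).first = none
  have h0 : T.top 0 = 0 := Nat.eq_zero_of_not_pos h
  rw [Globe.vertex, dif_pos h0]
  rfl

theorem Table.toDiscZero_vertex (T : Table) (h : ¬ 0 < T.top 0) :
    T.toDiscZero h ≫ T.vertex = 𝟙 _ :=
  Table.homExtCell fun n d => by
    obtain ⟨p, γ⟩ := d
    have hp : p = 0 := Fin.ext (by have := p.2; have := T.len_eq_zero h; omega)
    subst hp
    refine congrArg (Quot.mk _) (Sigma.ext rfl (heq_of_eq ?_))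
    have h0 : T.top 0 = 0 := Nat.eq_zero_of_not_pos h
    refine Globe.Hom.ext ?_
    obtain ⟨f, hf⟩ := γ
    show (Globe.compHom (Globe.compHom ⟨f, hf⟩ _) (Globe.vertex (T.top 0))).first = f
    simp only [Globe.vertex, dif_pos h0]
    cases f <;> rfl

/-- `Σ S + T` for any `T`. -/
def Table.add (S T : Table) : Table :=
  if h : 0 < T.top 0 then S.join T h else S.susp

/-- A map from a disc into the extension, along an equality of dimensions. -/
def Ext.reDisc (E : Ext) {a b : ℕ} (h : a = b) : E.M (disc a) (disc b) :=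
  eqToHom (congrArg (fun k => E.i.obj (disc k)) h)

/-- The pushout `Σ S + T` in the extension. -/
structure Ext.Join (E : Ext) (S T : Table) (U : Table) : Type where
  inl : E.M S.susp U
  inr : E.M T U
  glue : E.pole S true ≫ inl = E.v0 T ≫ inr
  v0_eq : E.v0 U = E.pole S false ≫ inl
  glue_value : ∀ (X : E.Gpd) (h : E.at X.obj S.susp) (g : E.at X.obj T),
    E.act X.obj (E.pole S true) h = E.act X.obj (E.v0 T) g →
      ∃ z, E.act X.obj inl z = h ∧ E.act X.obj inr z = g
  value_ext : ∀ (X : E.Gpd) (z z' : E.at X.obj U), E.act X.obj inl z = E.act X.obj inl z' →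
    E.act X.obj inr z = E.act X.obj inr z' → z = z'

theorem Ext.pole_eq (E : Ext) (T : Table) (e : Bool) (p : Fin (T.len + 1)) :
    E.i.map (side e (Nat.succ_pos (T.top p))) ≫ E.inc T.susp p = E.pole T e := by
  rw [Ext.pole, ← T.pole_eq e p]
  exact (E.i.map_comp _ _).symm

theorem Ext.side_reDisc (E : Ext) (e : Bool) {j a b : ℕ} (h : a = b) (ha : j < a) :
    E.i.map (side e ha) ≫ E.reDisc h = E.i.map (side e (h ▸ ha)) := by
  subst h
  exact Category.comp_id _

theorem Ext.reDisc_reDisc (E : Ext) {a b : ℕ} (h : a = b) (h' : b = a) :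
    E.reDisc h ≫ E.reDisc h' = 𝟙 _ := by
  subst h
  exact Category.comp_id _

theorem Ext.side_congr (E : Ext) (e : Bool) {j j' i : ℕ} (h : j = j') (hj : j < i) :
    E.i.map (side e hj) = E.reDisc h ≫ E.i.map (side e (h ▸ hj)) := by
  subst h
  exact (Category.id_comp _).symm

/-- Independence of the way of naming the bottom and the top of a gluing. -/
theorem Ext.glue_transport (E : Ext) {Z : E.Obj} {j j' a a' b b' : ℕ} (hj : j' = j) (ha : a' = a)
    (hb : b' = b) (hja : j < a) (hjb : j < b) (hja' : j' < a') (hjb' : j' < b')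
    (f : E.i.obj (disc a) ⟶ Z) (g : E.i.obj (disc b) ⟶ Z)
    (h : E.i.map (side true hja) ≫ f = E.i.map (side false hjb) ≫ g) :
    E.i.map (side true hja') ≫ E.reDisc ha ≫ f = E.i.map (side false hjb') ≫ E.reDisc hb ≫ g := by
  subst hj ha hb
  rw [show E.reDisc (rfl : a' = a') = 𝟙 _ from rfl, show E.reDisc (rfl : b' = b') = 𝟙 _ from rfl,
    Category.id_comp, Category.id_comp]
  exact h

/-- Values of a model agree if their restrictions to the discs agree. -/
theorem Ext.value_ext (E : Ext) (X : E.Gpd) {T : Table} {z z' : E.at X.obj T}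
    (h : ∀ p, E.act X.obj (E.inc T p) z = E.act X.obj (E.inc T p) z') : z = z' := by
  obtain ⟨d, -, hu⟩ := X.property T (fun p => E.act X.obj (E.inc T p) z) fun q => by
    rw [← E.act_comp, ← E.act_comp, ← E.i.map_comp, ← E.i.map_comp,
      Table.disc_ext (Quot.sound (Table.Rel.glue q (𝟙 _)))
        (f := side true (T.lt_left q) ≫ incl T q.castSucc)
        (g := side false (T.lt_right q) ≫ incl T q.succ)]
  exact (hu z fun p => rfl).trans (hu z' fun p => (h p).symm).symm

theorem Ext.act_table_square (E : Ext) (X : E.Psh) {A B B' C : Table} {f : A ⟶ B} {g : B ⟶ C}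
    {f' : A ⟶ B'} {g' : B' ⟶ C} (h : f ≫ g = f' ≫ g') (x : E.at X C) :
    E.act X (E.i.map f) (E.act X (E.i.map g) x) = E.act X (E.i.map f') (E.act X (E.i.map g') x) := by
  rw [← E.act_comp, ← E.act_comp, ← E.i.map_comp, ← E.i.map_comp, h]

/-- The join is a pushout. -/
theorem Ext.join_exists (E : Ext) (S T : Table) (hT : 0 < T.top 0) :
    Nonempty (E.Join S T (S.join T hT)) := by
  let U := S.join T hT
  have tl : ∀ i, U.top (Fin.castAdd (T.len + 1) i) = S.susp.top i :=
    fun i => Fin.append_left _ _ i
  have tr : ∀ i, U.top (Fin.natAdd (S.len + 1) i) = T.top i :=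
    fun i => Fin.append_right _ _ i
  let fl : ∀ i, E.M (disc (S.susp.top i)) U :=
    fun i => E.reDisc (tl i).symm ≫ E.inc U (Fin.castAdd (T.len + 1) i)
  let fr : ∀ i, E.M (disc (T.top i)) U :=
    fun i => E.reDisc (tr i).symm ≫ E.inc U (Fin.natAdd (S.len + 1) i)
  have gU : ∀ q : Fin U.len, E.i.map (side true (U.lt_left q)) ≫ E.inc U q.castSucc
      = E.i.map (side false (U.lt_right q)) ≫ E.inc U q.succ := fun q => by
    rw [Ext.inc, Ext.inc, ← E.i.map_comp, ← E.i.map_comp]
    exact congrArg E.i.map (Table.disc_ext (Quot.sound (Table.Rel.glue q (𝟙 _))))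
  -- gluing of the two families
  have move : ∀ (q : Fin U.len) (P P' : Fin (U.len + 1)) (_ : q.castSucc = P) (_ : q.succ = P')
      {j a b : ℕ} (hj : j = U.bot q) (ha : a = U.top P) (hb : b = U.top P')
      (hja : j < a) (hjb : j < b),
      E.i.map (side true hja) ≫ E.reDisc ha ≫ E.inc U P
        = E.i.map (side false hjb) ≫ E.reDisc hb ≫ E.inc U P' := by
    intro q P P' e1 e2 j a b hj ha hb hja hjb
    subst e1 e2
    exact E.glue_transport hj ha hb (U.lt_left q) (U.lt_right q) hja hjb _ _ (gU q)
  obtain ⟨inl, hl⟩ := E.exists_desc S.susp fl fun q =>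
    move (Fin.castAdd T.len q.castSucc) (Fin.castAdd (T.len + 1) q.castSucc)
      (Fin.castAdd (T.len + 1) q.succ) rfl (Fin.ext rfl)
      (by show S.susp.bot q = Fin.append _ _ _; rw [Fin.append_left, Fin.snoc_castSucc])
      (tl _).symm (tl _).symm (S.susp.lt_left q) (S.susp.lt_right q)
  obtain ⟨inr, hr⟩ := E.exists_desc T fr fun q =>
    move (Fin.natAdd (S.len + 1) q) (Fin.natAdd (S.len + 1) q.castSucc)
      (Fin.natAdd (S.len + 1) q.succ) rfl (Fin.ext rfl)
      (by show T.bot q = Fin.append _ _ _; rw [Fin.append_right])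
      (tr _).symm (tr _).symm (T.lt_left q) (T.lt_right q)
  have hv : ∀ (e : Bool) (T' : Table) (h : 0 < T'.top 0), e = false →
      E.v0 T' = E.i.map (side e h) ≫ E.inc T' 0 := by
    rintro e T' h rfl
    rw [Ext.v0, Ext.inc, ← E.i.map_comp]
    refine congrArg E.i.map (Table.disc_ext ((Table.ofCell_top _ _).trans ?_))
    refine congrArg (Quot.mk _) (Sigma.ext rfl (heq_of_eq ?_))
    show Globe.vertex (T'.top 0) = _
    rw [Globe.vertex, dif_neg (Nat.ne_of_gt h)]
    rfl
  have hlast : E.pole S true ≫ inl
      = E.i.map (side true (Nat.succ_pos (S.top (Fin.last S.len)))) ≫ fl (Fin.last S.len) := by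
    rw [← E.pole_eq S true (Fin.last S.len), Category.assoc]
    exact congrArg (fun m => E.i.map (side true (Nat.succ_pos (S.top (Fin.last S.len)))) ≫ m)
      (hl (Fin.last S.len))
  have glue : E.pole S true ≫ inl = E.v0 T ≫ inr := by
    rw [hlast, hv false T hT rfl, Category.assoc, hr 0]
    exact move (Fin.castAdd T.len (Fin.last S.len)) _ _ rfl (Fin.ext rfl)
      (by show (0 : ℕ) = Fin.append _ _ _; rw [Fin.append_left, Fin.snoc_last])
      (tl _).symm (tr _).symm _ hT
  have h0 : 0 < U.top 0 := by
    rw [show (0 : Fin (U.len + 1)) = Fin.castAdd (T.len + 1) (0 : Fin (S.len + 1)) from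
      Fin.ext rfl, tl]
    exact Nat.succ_pos _
  have v0_eq : E.v0 U = E.pole S false ≫ inl := by
    rw [← E.pole_eq S false 0, Category.assoc]
    refine Eq.trans ?_ (congrArg (fun m => E.i.map (side false (Nat.succ_pos (S.top 0))) ≫ m)
      (hl 0)).symm
    rw [hv false U h0 rfl]
    have key : ∀ (P : Fin (U.len + 1)) (_ : (0 : Fin (U.len + 1)) = P) (a : ℕ) (ha : a = U.top P)
        (hpos : 0 < a), E.i.map (side false h0) ≫ E.inc U 0
          = E.i.map (side false hpos) ≫ E.reDisc ha ≫ E.inc U P := by
      rintro P rfl a rfl hpos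
      rw [show E.reDisc (rfl : U.top 0 = U.top 0) = 𝟙 _ from rfl, Category.id_comp]
    exact key (Fin.castAdd (T.len + 1) 0) (Fin.ext rfl) _ (tl 0).symm _
  refine ⟨⟨inl, inr, glue, v0_eq, fun X h g hhg => ?_, fun X z z' hk hk' => ?_⟩⟩
  · let f : ∀ P : Fin (U.len + 1), E.at X.obj (disc (U.top P)) := fun P =>
      Fin.addCases (m := S.len + 1) (n := T.len + 1)
        (motive := fun P => E.at X.obj (disc (U.top P)))
        (fun i => E.act X.obj (E.reDisc (tl i)) (E.act X.obj (E.inc S.susp i) h))
        (fun i => E.act X.obj (E.reDisc (tr i)) (E.act X.obj (E.inc T i) g)) P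
    have fL : ∀ i, f (Fin.castAdd (T.len + 1) i)
        = E.act X.obj (E.reDisc (tl i)) (E.act X.obj (E.inc S.susp i) h) :=
      fun i => Fin.addCases_left i
    have fR : ∀ i, f (Fin.natAdd (S.len + 1) i)
        = E.act X.obj (E.reDisc (tr i)) (E.act X.obj (E.inc T i) g) :=
      fun i => Fin.addCases_right i
    have back : ∀ (q : Fin U.len) (P P' : Fin (U.len + 1)) (_ : q.castSucc = P) (_ : q.succ = P')
        {j a b : ℕ} (hj : U.bot q = j) (ha : U.top P = a) (hb : U.top P' = b)
        (hja : j < a) (hjb : j < b) (x : E.at X.obj (disc a)) (y : E.at X.obj (disc b)),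
        f P = E.act X.obj (E.reDisc ha) x → f P' = E.act X.obj (E.reDisc hb) y →
        E.act X.obj (E.i.map (side true hja)) x = E.act X.obj (E.i.map (side false hjb)) y →
        E.act X.obj (E.i.map (side true (U.lt_left q))) (f q.castSucc)
          = E.act X.obj (E.i.map (side false (U.lt_right q))) (f q.succ) := by
      intro q P P' e1 e2 j a b hj ha hb hja hjb x y hx hy hxy
      subst e1 e2
      subst hj ha hb
      rw [hx, hy]
      refine Eq.trans ?_ (Eq.trans hxy ?_)
      · exact congrArg (E.act X.obj _) (E.act_id X.obj x)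
      · exact (congrArg (E.act X.obj _) (E.act_id X.obj y)).symm
    have cond : ∀ q : Fin U.len, E.act X.obj (E.i.map (side true (U.lt_left q))) (f q.castSucc)
        = E.act X.obj (E.i.map (side false (U.lt_right q))) (f q.succ) := by
      intro q
      refine Fin.addCases (m := S.len + 1) (n := T.len) (fun i => ?_) (fun i => ?_) q
      · induction i using Fin.lastCases with
        | last =>
          refine back _ (Fin.castAdd (T.len + 1) (Fin.last S.len))
            (Fin.natAdd (S.len + 1) (0 : Fin (T.len + 1))) rfl (Fin.ext rfl)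
            (j := 0) (by show Fin.append _ _ _ = 0; rw [Fin.append_left, Fin.snoc_last])
            (tl _) (tr _) (Nat.succ_pos _) hT _ _ (fL _) (fR _) ?_
          rw [← E.act_comp, ← E.act_comp, ← hv false T hT rfl]
          exact (congrArg (fun m => E.act X.obj m h) (E.pole_eq S true (Fin.last S.len))).trans hhg
        | cast i =>
          refine back _ (Fin.castAdd (T.len + 1) i.castSucc) (Fin.castAdd (T.len + 1) i.succ) rfl
            (Fin.ext rfl) (j := S.susp.bot i)
            (by show Fin.append _ _ _ = _; rw [Fin.append_left, Fin.snoc_castSucc])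
            (tl _) (tl _) (S.susp.lt_left i) (S.susp.lt_right i) _ _ (fL _) (fL _) ?_
          exact E.act_table_square X.obj
            (Table.disc_ext (f := side true (S.susp.lt_left i) ≫ incl S.susp i.castSucc)
              (g := side false (S.susp.lt_right i) ≫ incl S.susp i.succ)
              (Quot.sound (Table.Rel.glue (T := S.susp) i (𝟙 _)))) h
      · refine back _ (Fin.natAdd (S.len + 1) i.castSucc) (Fin.natAdd (S.len + 1) i.succ) rfl
          (Fin.ext rfl) (j := T.bot i)
          (by show Fin.append _ _ _ = _; rw [Fin.append_right])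
          (tr _) (tr _) (T.lt_left i) (T.lt_right i) _ _ (fR _) (fR _) ?_
        exact E.act_table_square X.obj
          (Table.disc_ext (f := side true (T.lt_left i) ≫ incl T i.castSucc)
            (g := side false (T.lt_right i) ≫ incl T i.succ)
            (Quot.sound (Table.Rel.glue (T := T) i (𝟙 _)))) g
    obtain ⟨z, hz, -⟩ := X.property U f cond
    refine ⟨z, E.value_ext X fun i => ?_, E.value_ext X fun i => ?_⟩
    · refine (E.act_comp X.obj (E.inc S.susp i) inl z).symm.trans ?_
      refine (congrArg (fun m => E.act X.obj m z) (hl i)).trans ((E.act_comp X.obj _ _ z).trans ?_)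
      refine (congrArg (E.act X.obj (E.reDisc (tl i).symm)) ((hz _).trans (fL i))).trans ?_
      refine (E.act_comp X.obj _ _ _).symm.trans ?_
      exact (congrArg (fun m => E.act X.obj m (E.act X.obj (E.inc S.susp i) h))
        (E.reDisc_reDisc _ _)).trans (E.act_id X.obj _)
    · refine (E.act_comp X.obj (E.inc T i) inr z).symm.trans ?_
      refine (congrArg (fun m => E.act X.obj m z) (hr i)).trans ((E.act_comp X.obj _ _ z).trans ?_)
      refine (congrArg (E.act X.obj (E.reDisc (tr i).symm)) ((hz _).trans (fR i))).trans ?_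
      refine (E.act_comp X.obj _ _ _).symm.trans ?_
      exact (congrArg (fun m => E.act X.obj m (E.act X.obj (E.inc T i) g))
        (E.reDisc_reDisc _ _)).trans (E.act_id X.obj _)
  · refine E.value_ext X fun P => ?_
    refine Fin.addCases (m := S.len + 1) (n := T.len + 1) (fun i => ?_) (fun i => ?_) P
    · have e : E.inc U (Fin.castAdd (T.len + 1) i) = E.reDisc (tl i) ≫ E.inc S.susp i ≫ inl := by
        rw [hl, ← Category.assoc, E.reDisc_reDisc, Category.id_comp]
      refine (congrArg (fun m => E.act X.obj m z) e).trans (Eq.trans ?_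
        (congrArg (fun m => E.act X.obj m z') e).symm)
      rw [E.act_comp, E.act_comp, E.act_comp, E.act_comp, hk]
    · have e : E.inc U (Fin.natAdd (S.len + 1) i) = E.reDisc (tr i) ≫ E.inc T i ≫ inr := by
        rw [hr, ← Category.assoc, E.reDisc_reDisc, Category.id_comp]
      refine (congrArg (fun m => E.act X.obj m z) e).trans (Eq.trans ?_
        (congrArg (fun m => E.act X.obj m z') e).symm)
      rw [E.act_comp, E.act_comp, E.act_comp, E.act_comp, hk']

theorem Ext.add_exists (E : Ext) (S T : Table) : Nonempty (E.Join S T (S.add T)) := by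
  by_cases h : 0 < T.top 0
  · rw [show S.add T = S.join T h from dif_pos h]
    exact E.join_exists S T h
  · rw [show S.add T = S.susp from dif_neg h]
    have e1 : E.v0 T ≫ E.i.map (T.toDiscZero h) = 𝟙 _ :=
      ((E.i.map_comp _ _).symm.trans (congrArg E.i.map (T.vertex_toDiscZero h))).trans (E.i.map_id _)
    have e2 : E.i.map (T.toDiscZero h) ≫ E.v0 T = 𝟙 _ :=
      ((E.i.map_comp _ _).symm.trans (congrArg E.i.map (T.toDiscZero_vertex h))).trans (E.i.map_id _)
    refine ⟨⟨𝟙 _, E.i.map (T.toDiscZero h) ≫ E.pole S true, ?_, ?_, fun X a b hab => ?_,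
      fun X z z' hk _ => by rwa [E.act_id, E.act_id] at hk⟩⟩
    · rw [Category.comp_id, ← Category.assoc, e1, Category.id_comp]
    · rw [Category.comp_id, Ext.v0, Ext.pole, Table.vertex_susp]
    · refine ⟨a, E.act_id X.obj a, ?_⟩
      rw [E.act_comp, hab, ← E.act_comp, e2, E.act_id]

/-- The pushout data. -/
def Ext.addJoin (E : Ext) (S T : Table) : E.Join S T (S.add T) := (E.add_exists S T).some

/-- The suspension functor of an extension. -/
def Ext.susFunctor (E : Ext) : E.up.Tab ⥤ E.Tab where
  obj S := ⟨S.T.susp⟩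
  map f := Ext.Tab.mk' f.hom.h

/-- The abstract suspension structure of an extension. -/
def Ext.suspData (E : Ext) : Elem.Susp E.Tab E.up.Tab where
  pt := ⟨disc 0⟩
  v0 T := Ext.Tab.mk' (E.v0 T.T)
  v0_pt := InducedCategory.hom_ext
    ((congrArg E.i.map Table.vertex_disc_zero).trans (E.i.map_id _))
  sus := E.susFunctor
  src S := Ext.Tab.mk' (E.pole S.T false)
  tgt S := Ext.Tab.mk' (E.pole S.T true)
  src_map f := InducedCategory.hom_ext (f.hom.pole false)
  tgt_map f := InducedCategory.hom_ext (f.hom.pole true)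
  add S T := ⟨S.T.add T.T⟩
  inl S T := Ext.Tab.mk' (E.addJoin S.T T.T).inl
  inr S T := Ext.Tab.mk' (E.addJoin S.T T.T).inr
  glue S T := InducedCategory.hom_ext (E.addJoin S.T T.T).glue
  v0_add S T := InducedCategory.hom_ext (E.addJoin S.T T.T).v0_eq
  v0_sus S := InducedCategory.hom_ext (congrArg E.i.map S.T.vertex_susp)
  existsDesc {S T U} h g e := by
    obtain ⟨k, h1, h2⟩ := (E.addJoin S.T T.T).glue_value (E.yon U.T) h.hom g.hom
      (congrArg InducedCategory.Hom.hom e :)
    exact ⟨Ext.Tab.mk' k, InducedCategory.hom_ext h1, InducedCategory.hom_ext h2⟩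
  descUnique {S T U} k k' h1 h2 := InducedCategory.hom_ext
    ((E.addJoin S.T T.T).value_ext (E.yon U.T) k.hom k'.hom (congrArg InducedCategory.Hom.hom h1 :)
      (congrArg InducedCategory.Hom.hom h2 :))

end

end Vale.Agent.P259
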