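import Vale.Agent.P259.Model.Linked
import Vale.Agent.P259.Glob.Instance

/-!
# P259: models one level up, and contractibility of the extension one level up
-/

namespace Vale.Agent.P259

open CategoryTheory Opposite

noncomputable section

variable {E : Ext}

/-- The maps between two points, as a presheaf one level up. -/
def Ext.homUp (E : Ext) (X : E.Psh) (a b : E.cells X 0) : E.up.Psh where
  obj U := {s : E.at X U.unop.T.susp //
    E.act X (E.pole U.unop.T false) s = a ∧ E.act X (E.pole U.unop.T true) s = b}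
  map f := TypeCat.ofHom fun s => ⟨E.act X f.unop.h s.1,
    by rw [← E.act_comp, f.unop.pole]; exact s.2.1,
    by rw [← E.act_comp, f.unop.pole]; exact s.2.2⟩
  map_id U := ConcreteCategory.hom_ext _ _ fun s => Subtype.ext (E.act_id X s.1)
  map_comp f g := ConcreteCategory.hom_ext _ _ fun s => Subtype.ext (E.act_comp X _ _ s.1)

theorem Ext.act_discSusp (E : Ext) (X : E.Psh) {n : ℕ} (x : E.at X (disc (n + 1))) :
    E.act X (E.i.map (discSusp n)) (E.act X (E.i.map (suspDisc n)) x) = x := by
  rw [← E.act_comp, ← E.i.map_comp, discSusp_suspDisc, E.i.map_id, E.act_id]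

theorem Ext.act_suspDisc (E : Ext) (X : E.Psh) {n : ℕ} (x : E.at X (disc n).susp) :
    E.act X (E.i.map (suspDisc n)) (E.act X (E.i.map (discSusp n)) x) = x := by
  rw [← E.act_comp, ← E.i.map_comp, suspDisc_discSusp, E.i.map_id, E.act_id]

theorem Ext.act_square (E : Ext) (X : E.Psh) {A B B' C : Table} {f : A ⟶ B} {g : B ⟶ C}
    {f' : A ⟶ B'} {g' : B' ⟶ C} (h : f ≫ g = f' ≫ g') (x : E.at X C) :
    E.act X (E.i.map f) (E.act X (E.i.map g) x) = E.act X (E.i.map f') (E.act X (E.i.map g') x) := by
  rw [← E.act_comp, ← E.act_comp, ← E.i.map_comp, ← E.i.map_comp, h]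

theorem side_discSusp (e : Bool) (n : ℕ) :
    side e (Nat.succ_pos n) ≫ discSusp n = (disc n).pole e :=
  Table.disc_ext rfl

theorem pole_suspDisc (e : Bool) (n : ℕ) :
    (disc n).pole e ≫ suspDisc n = side e (Nat.succ_pos n) := by
  rw [← side_discSusp, Category.assoc, discSusp_suspDisc, Category.comp_id]

theorem Ext.act_pole_discSusp (E : Ext) (X : E.Psh) (e : Bool) {n : ℕ} (x : E.at X (disc n).susp) :
    E.act X (E.i.map (side e (Nat.succ_pos n))) (E.act X (E.i.map (discSusp n)) x)
      = E.act X (E.pole (disc n) e) x := by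
  rw [← E.act_comp, ← E.i.map_comp, side_discSusp]
  rfl

theorem Ext.homUp_isGpd (E : Ext) (X : E.Gpd) (a b : E.cells X.obj 0) :
    E.up.IsGpd (E.homUp X.obj a b) := by
  intro T c hc
  have conv : ∀ (e : Bool) (j i : ℕ) (hji : j < i) (x : E.at X.obj (disc i).susp),
      E.act X.obj (E.i.map (side e (Nat.succ_lt_succ hji))) (E.act X.obj (E.i.map (discSusp i)) x)
        = E.act X.obj (E.i.map (discSusp j)) (E.act X.obj (E.i.map (Table.suspMap (side e hji))) x) := by
    intro e j i hji x
    rw [← E.act_comp, ← E.act_comp, ← E.i.map_comp, ← E.i.map_comp, discSusp_side]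
  obtain ⟨x, hx, hu⟩ := X.property T.susp
    (fun p => E.act X.obj (E.i.map (discSusp (T.top p))) (c p).1) fun q =>
      ((conv true _ _ (T.lt_left q) _).trans
        (congrArg (E.act X.obj (E.i.map (discSusp (T.bot q)))) (congrArg Subtype.val (hc q)))).trans
          (conv false _ _ (T.lt_right q) _).symm
  have hp : ∀ e, E.act X.obj (E.pole T e) x = E.act X.obj (E.pole (disc (T.top 0)) e) (c 0).1 := by
    intro e
    rw [← E.pole_eq T e 0, E.act_comp]
    exact (congrArg (E.act X.obj _) (hx 0)).trans (E.act_pole_discSusp X.obj e _)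
  refine ⟨⟨x, (hp false).trans (c 0).2.1, (hp true).trans (c 0).2.2⟩, fun p => Subtype.ext ?_,
    fun y hy => Subtype.ext (hu y.1 fun p => ?_)⟩
  · show E.act X.obj (E.i.map (Table.suspMap (incl T p))) x = (c p).1
    refine Eq.trans ?_ (E.act_suspDisc X.obj (c p).1)
    refine Eq.trans ?_ (congrArg (E.act X.obj (E.i.map (suspDisc (T.top p)))) (hx p))
    rw [← E.act_comp, ← E.i.map_comp, ← discSusp_incl, ← Category.assoc, suspDisc_discSusp,
      Category.id_comp]
  · refine Eq.trans ?_ (congrArg (E.act X.obj (E.i.map (discSusp (T.top p))))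
      (congrArg Subtype.val (hy p)))
    show E.act X.obj (E.i.map (incl T.susp p)) y.1
      = E.act X.obj _ (E.act X.obj (E.i.map (Table.suspMap (incl T p))) y.1)
    refine Eq.trans ?_ (E.act_comp X.obj _ _ y.1)
    exact congrArg (fun m => E.act X.obj m y.1)
      ((congrArg E.i.map (discSusp_incl T p).symm).trans (E.i.map_comp _ _))

/-- The model of maps between two points. -/
def Ext.homGpd (E : Ext) (X : E.Gpd) (a b : E.cells X.obj 0) : E.up.Gpd :=
  ⟨E.homUp X.obj a b, E.homUp_isGpd X a b⟩

/-- A cell between two points as a cell one level up. -/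
def Ext.downCell (E : Ext) {X : E.Psh} {a b : E.cells X 0} {n : ℕ}
    (s : E.up.cells (E.homUp X a b) n) : E.cells X (n + 1) :=
  E.act X (E.i.map (discSusp n)) s.1

theorem Ext.downCell_injective (E : Ext) {X : E.Psh} {a b : E.cells X 0} {n : ℕ} :
    Function.Injective (E.downCell (X := X) (a := a) (b := b) (n := n)) := fun s t h =>
  Subtype.ext (((E.act_suspDisc X s.1).symm.trans (congrArg _ h)).trans (E.act_suspDisc X t.1))

/-- Raise a cell with the given ends. -/
def Ext.upCellOf (E : Ext) {X : E.Psh} {a b : E.cells X 0} {n : ℕ} (c : E.cells X (n + 1))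
    (hs : E.act X (E.i.map (side false (Nat.succ_pos n))) c = a)
    (ht : E.act X (E.i.map (side true (Nat.succ_pos n))) c = b) :
    E.up.cells (E.homUp X a b) n :=
  ⟨E.act X (E.i.map (suspDisc n)) c,
    (E.act_pole_discSusp X false _).symm.trans ((congrArg _ (E.act_discSusp X c)).trans hs),
    (E.act_pole_discSusp X true _).symm.trans ((congrArg _ (E.act_discSusp X c)).trans ht)⟩

theorem Ext.downCell_upCellOf (E : Ext) {X : E.Psh} {a b : E.cells X 0} {n : ℕ}
    (c : E.cells X (n + 1)) (hs ht) :
    E.downCell (E.upCellOf (a := a) (b := b) c hs ht) = c :=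
  E.act_discSusp X c

theorem Ext.downCell_face (E : Ext) {X : E.Psh} {a b : E.cells X 0} {n : ℕ} (e : Bool)
    (s : E.up.cells (E.homUp X a b) (n + 1)) :
    E.downCell (E.up.act (E.homUp X a b) (E.up.face e n) s)
      = E.act X (E.face e (n + 1)) (E.downCell s) := by
  show E.act X (E.i.map (discSusp n))
      (E.act X (E.i.map (Table.suspMap (side e n.lt_succ_self))) s.1)
    = E.act X (E.i.map (side e (Nat.lt_succ_self (n + 1))))
      (E.act X (E.i.map (discSusp (n + 1))) s.1)
  exact E.act_square X (discSusp_side e n.lt_succ_self) s.1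

theorem Ext.downCell_ends (E : Ext) {X : E.Psh} {a b : E.cells X 0} {n : ℕ}
    (s : E.up.cells (E.homUp X a b) n) :
    E.act X (E.i.map (side false (Nat.succ_pos n))) (E.downCell s) = a ∧
      E.act X (E.i.map (side true (Nat.succ_pos n))) (E.downCell s) = b :=
  ⟨(E.act_pole_discSusp X false s.1).trans s.2.1, (E.act_pole_discSusp X true s.1).trans s.2.2⟩

theorem Ext.par_down (E : Ext) {X : E.Psh} {a b : E.cells X 0} {n : ℕ}
    {s t : E.up.cells (E.homUp X a b) n} (h : E.up.Par (E.homUp X a b) s t) :
    E.Par X (E.downCell s) (E.downCell t) := by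
  intro e
  cases n with
  | zero =>
    cases e
    · exact (E.downCell_ends s).1.trans (E.downCell_ends t).1.symm
    · exact (E.downCell_ends s).2.trans (E.downCell_ends t).2.symm
  | succ n =>
    exact ((E.downCell_face e s).symm.trans (congrArg E.downCell (h e))).trans (E.downCell_face e t)

theorem Ext.par_up (E : Ext) {X : E.Psh} {a b : E.cells X 0} {n : ℕ}
    {s t : E.up.cells (E.homUp X a b) n} (h : E.Par X (E.downCell s) (E.downCell t)) :
    E.up.Par (E.homUp X a b) s t := by
  cases n with
  | zero => trivial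
  | succ n =>
    intro e
    exact E.downCell_injective (((E.downCell_face e s).trans (h e)).trans (E.downCell_face e t).symm)

theorem Ext.linked_up (E : Ext) {X : E.Psh} {a b : E.cells X 0} {n : ℕ}
    {s t : E.up.cells (E.homUp X a b) n} (h : E.Linked X (E.downCell s) (E.downCell t)) :
    E.up.Linked (E.homUp X a b) s t := by
  obtain ⟨c, h1, h2⟩ := h
  have hk : ∀ e, E.act X (E.i.map (side e (Nat.succ_pos (n + 1)))) c
      = E.act X (E.i.map (side e (Nat.succ_pos n))) (E.downCell s) := by
    intro e
    rw [← h1, ← E.act_comp, ← E.i.map_comp, side_comp_side]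
  refine ⟨E.upCellOf c ((hk false).trans (E.downCell_ends s).1) ((hk true).trans (E.downCell_ends s).2),
    E.downCell_injective ?_, E.downCell_injective ?_⟩
  · rw [E.downCell_face, E.downCell_upCellOf, h1]
  · rw [E.downCell_face, E.downCell_upCellOf, h2]

theorem Ext.linked_down (E : Ext) {X : E.Psh} {a b : E.cells X 0} {n : ℕ}
    {s t : E.up.cells (E.homUp X a b) n} (h : E.up.Linked (E.homUp X a b) s t) :
    E.Linked X (E.downCell s) (E.downCell t) := by
  obtain ⟨c, h1, h2⟩ := h
  exact ⟨E.downCell c, by rw [← h1, E.downCell_face], by rw [← h2, E.downCell_face]⟩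

/-- Maps between two points of a contractible model form a contractible model. -/
theorem Ext.homUp_ctr (E : Ext) {X : E.Psh} (hX : E.Ctr X) (a b : E.cells X 0) :
    E.up.Ctr (E.homUp X a b) := by
  constructor
  · obtain ⟨c, h1, h2⟩ := hX.linked a b trivial
    exact ⟨E.upCellOf c h1 h2⟩
  · intro n s t h
    exact E.linked_up (hX.linked _ _ (E.par_down h))

/-- The extension one level up is contractible. -/
theorem Ext.up_contractible (E : Ext) (hE : E.Contractible) : E.up.Contractible := by
  intro n T f g hfg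
  have hY : E.up.Ctr (E.homUp (E.yon T.susp).obj (E.pole T false) (E.pole T true)) :=
    E.homUp_ctr (yonCtr E hE T.susp) _ _
  let cell : ∀ {m : ℕ}, E.up.M (disc m) T →
      E.up.cells (E.homUp (E.yon T.susp).obj (E.pole T false) (E.pole T true)) m :=
    fun f => ⟨f.h, f.pole false, f.pole true⟩
  have hpar : E.up.Par _ (cell f) (cell g) := by
    cases n with
    | zero => trivial
    | succ n => exact fun e => Subtype.ext (congrArg Ext.Up.Hom.h (hfg e))
  obtain ⟨c, h1, h2⟩ := hY.linked _ _ hpar
  refine ⟨⟨c.1, fun e => ?_⟩, Ext.Up.Hom.ext (congrArg Subtype.val h1),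
    Ext.Up.Hom.ext (congrArg Subtype.val h2)⟩
  cases e
  · exact c.2.1
  · exact c.2.2

end

end Vale.Agent.P259
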