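import Vale.Agent.P259.Glob.Tower
import Vale.Agent.P259.Elem.Suspension
import Vale.Agent.P259.Elem.Commute

/-!
# P259: edges of the suspension structure of an extension are cells of dimension one
-/

namespace Vale.Agent.P259

open CategoryTheory Opposite

noncomputable section

variable (E : Ext)

/-- The shape of an edge. -/
abbrev Ext.edgeShape : E.up.Tab := ⟨disc 0⟩

/-- The edge of a cell of dimension one. -/
def Ext.edgeOfCell {X : E.Psh} (c : E.cells X 1) {a b : E.cells X 0}
    (ha : E.act X (E.face false 0) c = a) (hb : E.act X (E.face true 0) c = b) :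
    Elem.Edge E.suspData E.edgeShape (E.tabPsh X) a b :=
  ⟨(E.upCellOf (a := a) (b := b) c ha hb).1, (E.upCellOf (a := a) (b := b) c ha hb).2.1,
    (E.upCellOf (a := a) (b := b) c ha hb).2.2⟩

variable {E}

theorem Ext.Linked.nonempty_edge {X : E.Psh} {a b : E.cells X 0} (h : E.Linked X a b) :
    Nonempty (Elem.Edge E.suspData E.edgeShape (E.tabPsh X) a b) :=
  let ⟨c, ha, hb⟩ := h
  ⟨E.edgeOfCell c ha hb⟩

theorem Ext.ctr_oneConn {X : E.Psh} (h : E.Ctr X) : E.OneConn X :=
  ⟨⟨h.nonempty, fun a b => h.linked a b trivial⟩, fun a b hab => h.linked a b hab⟩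

/-- Two maps out of the suspension of a point with the same ends give a lift. -/
theorem Ext.edge_lift (hE : E.Contractible) {U : Table} (h h' : E.M (disc 0).susp U)
    (he : ∀ e, E.pole (disc 0) e ≫ h = E.pole (disc 0) e ≫ h') :
    ∃ l : E.M (disc 2) U, E.face false 1 ≫ l = E.i.map (discSusp 0) ≫ h ∧
      E.face true 1 ≫ l = E.i.map (discSusp 0) ≫ h' := by
  refine hE (E.i.map (discSusp 0) ≫ h) (E.i.map (discSusp 0) ≫ h') fun e => ?_
  rw [Ext.face, ← Category.assoc, ← Category.assoc, ← E.i.map_comp, side_discSusp]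
  exact he e

theorem suspMap_side_suspDisc (e : Bool) :
    Table.suspMap (side e (Nat.lt_succ_self 0)) ≫ suspDisc 1
      = suspDisc 0 ≫ side e (Nat.lt_succ_self 1) := by
  conv_lhs => rw [← Category.id_comp (Table.suspMap (side e (Nat.lt_succ_self 0))),
    ← suspDisc_discSusp 0, Category.assoc (suspDisc 0) (discSusp 0), discSusp_side,
    Category.assoc, Category.assoc, discSusp_suspDisc, Category.comp_id]

theorem Ext.suspDisc_discSusp_comp {n : ℕ} {U : Table} (h : E.M (disc n).susp U) :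
    E.i.map (suspDisc n) ≫ E.i.map (discSusp n) ≫ h = h := by
  rw [← Category.assoc, ← E.i.map_comp, suspDisc_discSusp, E.i.map_id, Category.id_comp]

theorem Ext.pole_suspDisc_face (e : Bool) :
    E.pole (disc 0) e ≫ E.i.map (suspDisc 0) ≫ E.face false 1
      = E.pole (disc 0) e ≫ E.i.map (suspDisc 0) ≫ E.face true 1 := by
  rw [← Category.assoc, ← Category.assoc, Ext.pole, ← E.i.map_comp, pole_suspDisc]
  exact E.face_face e false true 0

theorem Ext.edges (hE : E.Contractible) : E.suspData.Edges E.edgeShape := by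
  intro U a b
  obtain ⟨c, h1, h2⟩ := (yonCtr E hE U.T).linked a.hom b.hom trivial
  let k := E.upCellOf (X := (E.yon U.T).obj) (a := a.hom) (b := b.hom) c h1 h2
  exact ⟨Ext.Tab.mk' k.1,
    InducedCategory.hom_ext (show E.pole (disc 0) false ≫ k.1 = a.hom from k.2.1),
    InducedCategory.hom_ext (show E.pole (disc 0) true ≫ k.1 = b.hom from k.2.2)⟩

theorem Ext.hFill (hE : E.Contractible) : E.suspData.HFill E.edgeShape := by
  refine ⟨Ext.edges hE, fun U h h' hs ht => ?_⟩
  obtain ⟨l, l1, l2⟩ := Ext.edge_lift hE (U := U.T) h.hom h'.hom fun e => by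
    cases e
    · exact (congrArg InducedCategory.Hom.hom hs :)
    · exact (congrArg InducedCategory.Hom.hom ht :)
  let m (e : Bool) : E.edgeShape ⟶ (⟨disc 1⟩ : E.up.Tab) := Ext.Tab.mk' (E.up.face e 0)
  refine ⟨⟨disc 1⟩, E.suspData.sus.map (m false), E.suspData.sus.map (m true),
    Ext.Tab.mk' (E.i.map (suspDisc 1) ≫ l), E.suspData.src_map _, E.suspData.tgt_map _,
    E.suspData.src_map _, E.suspData.tgt_map _, InducedCategory.hom_ext ?_,
    InducedCategory.hom_ext ?_⟩
  · show E.i.map (Table.suspMap (side false (Nat.lt_succ_self 0))) ≫ E.i.map (suspDisc 1) ≫ l = h.hom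
    rw [← Category.assoc, ← E.i.map_comp, suspMap_side_suspDisc, E.i.map_comp, Category.assoc]
    refine (congrArg (E.i.map (suspDisc 0) ≫ ·) l1).trans ?_
    exact Ext.suspDisc_discSusp_comp (n := 0) h.hom
  · show E.i.map (Table.suspMap (side true (Nat.lt_succ_self 0))) ≫ E.i.map (suspDisc 1) ≫ l = h'.hom
    rw [← Category.assoc, ← E.i.map_comp, suspMap_side_suspDisc, E.i.map_comp, Category.assoc]
    refine (congrArg (E.i.map (suspDisc 0) ≫ ·) l2).trans ?_
    exact Ext.suspDisc_discSusp_comp (n := 0) h'.hom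

theorem Ext.simplyConn {X : E.Psh} (h : E.OneConn X) :
    E.suspData.SimplyConn E.edgeShape (E.tabPsh X) := by
  refine ⟨fun a b => ?_, fun u u' hs ht => ?_⟩
  · obtain ⟨v⟩ := (h.1.2 a b).nonempty_edge
    exact ⟨v.1, v.2⟩
  · change E.at X (disc 0).susp at u u'
    have hp : E.Par X (n := 1) (E.act X (E.i.map (discSusp 0)) u)
        (E.act X (E.i.map (discSusp 0)) u') := by
      intro e
      refine (E.act_pole_discSusp X e u).trans (Eq.trans ?_ (E.act_pole_discSusp X e u').symm)
      cases e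
      · exact hs
      · exact ht
    obtain ⟨d, d1, d2⟩ := h.2 _ _ hp
    refine ⟨⟨disc 2⟩, Ext.Tab.mk' (E.i.map (suspDisc 0) ≫ E.face false 1),
      Ext.Tab.mk' (E.i.map (suspDisc 0) ≫ E.face true 1), d,
      InducedCategory.hom_ext ?_, InducedCategory.hom_ext ?_, ?_, ?_⟩
    · exact Ext.pole_suspDisc_face false
    · exact Ext.pole_suspDisc_face true
    · show E.act X (E.i.map (suspDisc 0) ≫ E.face false 1) d = u
      rw [E.act_comp, d1, E.act_suspDisc]
    · show E.act X (E.i.map (suspDisc 0) ≫ E.face true 1) d = u'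
      rw [E.act_comp, d2, E.act_suspDisc]

/-- Parallel edges of a simply connected model are homotopic. -/
theorem Ext.edge_cls_eq (hE : E.Contractible) {X : E.Psh} (h : E.OneConn X)
    {a b : E.cells X 0} (u v : Elem.Edge E.suspData E.edgeShape (E.tabPsh X) a b) :
    u.cls = v.cls := by
  obtain ⟨W, m, m', w, h1, h2, h3, h4⟩ := (Ext.simplyConn h).homotopic u.1 v.1
    (u.2.1.trans v.2.1.symm) (u.2.2.trans v.2.2.symm)
  exact Elem.cls_eq_of_parallel (Ext.hFill hE) u v w m m' h3 h4 h1 h2

/-- Edges with equal classes are linked cells. -/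
theorem Ext.linked_of_cls (hE : E.Contractible) (X : E.Gpd) {a b : E.cells X.obj 0}
    (u v : Elem.Edge E.suspData E.edgeShape (E.tabPsh X.obj) a b) (h : u.cls = v.cls) :
    E.Linked X.obj (E.act X.obj (E.i.map (discSusp 0)) u.1)
      (E.act X.obj (E.i.map (discSusp 0)) v.1) := by
  have hg := Quot.eqvGen_exact h
  clear h
  induction hg with
  | rel s t hst =>
    obtain ⟨S, m, m', w, h1, h2, h3, h4, h5, h6⟩ := hst
    obtain ⟨l, l1, l2⟩ := Ext.edge_lift hE (U := S.T.susp) m.hom m'.hom fun e => by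
      cases e
      · exact (congrArg InducedCategory.Hom.hom (h1.trans h3.symm) :)
      · exact (congrArg InducedCategory.Hom.hom (h2.trans h4.symm) :)
    have key : ∀ (z : E.at X.obj S.T.susp) (k : E.M (disc 0).susp S.T.susp) (f : E.M (disc 1) (disc 2)),
        f ≫ l = E.i.map (discSusp 0) ≫ k → E.act X.obj f (E.act X.obj l z)
          = E.act X.obj (E.i.map (discSusp 0)) (E.act X.obj k z) := by
      intro z k f hf
      rw [← E.act_comp, hf, E.act_comp]
    exact ⟨E.act X.obj l w, (key w m.hom _ l1).trans (congrArg (E.act X.obj _) h5),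
      (key w m'.hom _ l2).trans (congrArg (E.act X.obj _) h6)⟩
  | refl s => exact Ext.linked_refl hE X.obj _
  | symm s t _ ih => exact Ext.linked_symm hE X.obj ih
  | trans s t r _ _ ih ih' => exact Ext.linked_trans hE X ih ih'

variable {C D : Type} [SmallCategory C] [SmallCategory D]

theorem Elem.Susp.glues_retract (σ : Elem.Susp C D) {P Q : Elem.Psh C} (f : Cat.ShHom P Q)
    (g : Cat.ShHom Q P) (hfg : ∀ S x, g.app S (f.app S x) = x) (hQ : σ.Glues Q) : σ.Glues P := by
  intro S T s x h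
  obtain ⟨z, ⟨z1, z2⟩, hz⟩ := hQ S T (f.app _ s) (f.app _ x)
    ((f.nat _ s).symm.trans ((congrArg (f.app _) h).trans (f.nat _ x)))
  refine ⟨g.app _ z, ⟨?_, ?_⟩, fun z' h' => ?_⟩
  · exact (g.nat _ z).symm.trans ((congrArg (g.app _) z1).trans (hfg _ s))
  · exact (g.nat _ z).symm.trans ((congrArg (g.app _) z2).trans (hfg _ x))
  · refine (hfg _ z').symm.trans (congrArg (g.app _) (hz _ ⟨?_, ?_⟩))
    · exact (f.nat _ z').symm.trans (congrArg (f.app _) h'.1)
    · exact (f.nat _ z').symm.trans (congrArg (f.app _) h'.2)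

theorem Ext.yonThin (hE : E.Contractible) :
    E.suspData.YonThin E.up.suspData E.up.edgeShape := by
  have hU : E.up.Contractible := E.up_contractible hE
  constructor
  · intro U s t P Q
    obtain ⟨_, ⟨Y, hY, rfl⟩, f, g, hfg⟩ := (E.good hE).yonHom 0 U s t
    obtain ⟨e⟩ := (hY.linked (f.app _ P) (f.app _ Q) trivial).nonempty_edge
    exact ⟨e.mapTo g (hfg _ P) (hfg _ Q)⟩
  · intro U s t P Q u v
    obtain ⟨_, ⟨Y, hY, rfl⟩, f, g, hfg⟩ := (E.good hE).yonHom 0 U s t
    have hid : ∀ w : Elem.Edge E.up.suspData E.up.edgeShape _ P Q,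
        (w.mapTo f rfl rfl).mapTo g (hfg _ P) (hfg _ Q) = w := fun w => Subtype.ext (hfg _ w.1)
    rw [← hid u, ← hid v]
    exact Elem.Edge.mapTo_htp g _ _
      (Ext.edge_cls_eq hU (Ext.ctr_oneConn hY) (u.mapTo f rfl rfl) (v.mapTo f rfl rfl))
  · intro U s t
    obtain ⟨_, ⟨Y, hY, rfl⟩, f, g, hfg⟩ := (E.good hE).yonHom 0 U s t
    exact Elem.Susp.glues_retract _ f g hfg (E.up.glues_tabPsh Y)

theorem Ext.yonAcyclic (hE : E.Contractible) : E.suspData.YonAcyclic := by
  intro U a b j
  obtain ⟨Y, hY, f, g, hfg⟩ := (E.good hE).yonHom 0 U a b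
  exact Cat.exact_of_iso f g hfg j ((E.good hE).exact j 1 Y hY)

end

end Vale.Agent.P259
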