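import Vale.Agent.P259.Glob.Cell

/-!
# P259: the suspension of globular sums
-/

namespace Vale.Agent.P259

open CategoryTheory Opposite

noncomputable section

/-- Raise the dimensions of a map of globes by one. -/
def Globe.up {a b : ℕ} (g : (⟨a⟩ : Globe) ⟶ ⟨b⟩) : (⟨a + 1⟩ : Globe) ⟶ ⟨b + 1⟩ :=
  ⟨g.first, by
    obtain ⟨f, hf⟩ := g
    cases f with
    | none => exact congrArg (· + 1) hf
    | some e => exact Nat.succ_lt_succ hf⟩

/-- Lower the dimensions of a map of globes by one. -/
def Globe.down {a b : ℕ} (g : (⟨a + 1⟩ : Globe) ⟶ ⟨b + 1⟩) : (⟨a⟩ : Globe) ⟶ ⟨b⟩ :=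
  ⟨g.first, by
    obtain ⟨f, hf⟩ := g
    cases f with
    | none => exact Nat.succ.inj hf
    | some e => exact Nat.lt_of_succ_lt_succ hf⟩

theorem Globe.up_down {a b : ℕ} (g : (⟨a + 1⟩ : Globe) ⟶ ⟨b + 1⟩) : Globe.up (Globe.down g) = g := rfl

theorem Globe.down_up {a b : ℕ} (g : (⟨a⟩ : Globe) ⟶ ⟨b⟩) : Globe.down (Globe.up g) = g := rfl

theorem Globe.up_comp {a b c : ℕ} (f : (⟨a⟩ : Globe) ⟶ ⟨b⟩) (g : (⟨b⟩ : Globe) ⟶ ⟨c⟩) :
    Globe.up (f ≫ g) = Globe.up f ≫ Globe.up g := by
  obtain ⟨f, hf⟩ := f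
  obtain ⟨g, hg⟩ := g
  cases f <;> cases g <;> rfl

theorem Globe.down_comp {a b c : ℕ} (f : (⟨a + 1⟩ : Globe) ⟶ ⟨b + 1⟩)
    (g : (⟨b + 1⟩ : Globe) ⟶ ⟨c + 1⟩) : Globe.down (f ≫ g) = Globe.down f ≫ Globe.down g := by
  obtain ⟨f, hf⟩ := f
  obtain ⟨g, hg⟩ := g
  cases f <;> cases g <;> rfl

theorem Globe.zero_first {k : ℕ} (g : (⟨0⟩ : Globe) ⟶ ⟨k + 1⟩) :
    ∃ e, g = Globe.pt e (Nat.succ_pos k) := by
  obtain ⟨f, hf⟩ := g
  cases f with
  | none => exact absurd hf (by simp [Globe.Ok])
  | some e => exact ⟨e, rfl⟩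

/-- The suspension of a table. -/
abbrev Table.susp (T : Table) : Table where
  len := T.len
  top p := T.top p + 1
  bot p := T.bot p + 1
  lt_left p := Nat.succ_lt_succ (T.lt_left p)
  lt_right p := Nat.succ_lt_succ (T.lt_right p)

/-- A pole of a suspension, as a cell. -/
def Table.poleCell (T : Table) (e : Bool) : T.susp.Cell 0 :=
  Quot.mk _ ⟨0, Globe.pt e (Nat.succ_pos _)⟩

theorem Table.susp_point (T : Table) (e : Bool) (p : Fin (T.len + 1)) :
    (Quot.mk _ ⟨p, Globe.pt e (Nat.succ_pos (T.top p))⟩ : T.susp.Cell 0) = T.poleCell e :=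
  T.susp.point_eq_zero (fun q => Nat.succ_pos _) e p (Nat.succ_pos _) (Nat.succ_pos _)

/-- A cell one dimension up. -/
def Table.upCell (T : Table) {n : ℕ} (c : T.Cell n) : T.susp.Cell (n + 1) :=
  Quot.map (fun d => (⟨d.1, Globe.up d.2⟩ : T.susp.Pre ⟨n + 1⟩)) (fun a b h => by
    cases h with
    | glue p g =>
      simp only [Globe.up_comp]
      exact Table.Rel.glue (T := T.susp) p (Globe.up g)) c

/-- The map on the cells before gluing of a suspended map. -/
def Table.suspPre {S T : Table} (f : S ⟶ T) : ∀ n : ℕ, S.susp.Pre ⟨n⟩ → T.susp.Cell n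
  | 0, d => T.poleCell (d.2.first.getD false)
  | n + 1, d => T.upCell (Table.mapCell f (Quot.mk _ (⟨d.1, Globe.down d.2⟩ : S.Pre ⟨n⟩)))

theorem Table.suspPre_rel {S T : Table} (f : S ⟶ T) (n : ℕ) (a b : S.susp.Pre ⟨n⟩)
    (h : S.susp.Rel ⟨n⟩ a b) : Table.suspPre f n a = Table.suspPre f n b := by
  cases h with
  | glue p g =>
    cases n with
    | zero =>
      obtain ⟨e, rfl⟩ := Globe.zero_first (k := S.bot p) g
      rfl
    | succ n =>
      refine congrArg (fun c => T.upCell (Table.mapCell f c)) ?_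
      refine Quot.sound ?_
      have h1 := Table.Rel.glue (T := S) p (Globe.down (b := S.bot p) g)
      have e1 : Globe.down (b := S.top p.castSucc)
          (g ≫ Globe.face true (S.susp.lt_left p)) = Globe.down g ≫ Globe.face true (S.lt_left p) :=
        Globe.down_comp _ _
      have e2 : Globe.down (b := S.top p.succ)
          (g ≫ Globe.face false (S.susp.lt_right p))
            = Globe.down g ≫ Globe.face false (S.lt_right p) :=
        Globe.down_comp _ _
      show S.Rel ⟨n⟩ (⟨p.castSucc, Globe.down (b := S.top p.castSucc)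
          (g ≫ Globe.face true (S.susp.lt_left p))⟩ : S.Pre ⟨n⟩)
        (⟨p.succ, Globe.down (b := S.top p.succ)
          (g ≫ Globe.face false (S.susp.lt_right p))⟩ : S.Pre ⟨n⟩)
      rw [e1, e2]
      exact h1

/-- A suspended map on cells. -/
def Table.suspCell {S T : Table} (f : S ⟶ T) (n : ℕ) : S.susp.Cell n → T.susp.Cell n :=
  Quot.lift (Table.suspPre f n) (Table.suspPre_rel f n)

theorem Table.suspCell_act {S T : Table} (f : S ⟶ T) {n m : ℕ}
    (g : (⟨m⟩ : Globe) ⟶ ⟨n⟩) (c : S.susp.Cell n) :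
    Table.suspCell f m (S.susp.actCell g c) = T.susp.actCell g (Table.suspCell f n c) := by
  induction c using Quot.ind with
  | _ d =>
    obtain ⟨p, γ⟩ := d
    cases n with
    | zero =>
      obtain ⟨h, hh⟩ := g
      cases h with
      | some e => exact absurd hh (Nat.not_lt_zero m)
      | none =>
        obtain rfl : m = 0 := hh
        obtain ⟨e, rfl⟩ := Globe.zero_first (k := S.top p) γ
        rfl
    | succ n =>
      cases m with
      | zero =>
        obtain ⟨e, rfl⟩ := Globe.zero_first (k := n) g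
        show T.poleCell _ = T.susp.actCell _ (T.upCell (Table.mapCell f _))
        generalize Table.mapCell f (Quot.mk _ (⟨p, Globe.down γ⟩ : S.Pre ⟨n⟩)) = w
        induction w using Quot.ind with
        | _ w =>
          obtain ⟨q, δ⟩ := w
          obtain ⟨γf, γh⟩ := γ
          obtain ⟨δf, δh⟩ := δ
          cases γf <;> cases δf <;> exact (T.susp_point e q).symm
      | succ m =>
        have hd : Globe.down (b := S.top p) (g ≫ γ) = Globe.down g ≫ Globe.down γ :=
          Globe.down_comp _ _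
        show T.upCell (Table.mapCell f (Quot.mk _
            (⟨p, Globe.down (b := S.top p) (g ≫ γ)⟩ : S.Pre ⟨m⟩)))
          = T.susp.actCell g (T.upCell (Table.mapCell f _))
        rw [hd, show (Quot.mk _ (⟨p, Globe.down g ≫ Globe.down γ⟩ : S.Pre ⟨m⟩) : S.Cell m)
            = S.actCell (Globe.down g) (Quot.mk _ ⟨p, Globe.down γ⟩) from rfl, Table.mapCell_act]
        generalize Table.mapCell f (Quot.mk _ (⟨p, Globe.down γ⟩ : S.Pre ⟨n⟩)) = w
        induction w using Quot.ind with
        | _ w =>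
          refine congrArg (Quot.mk _) (Sigma.ext rfl (heq_of_eq ?_))
          show Globe.up (Globe.down g ≫ w.2) = g ≫ Globe.up w.2
          rw [Globe.up_comp, Globe.up_down]

/-- The suspension of a map. -/
def Table.suspMap {S T : Table} (f : S ⟶ T) : S.susp ⟶ T.susp :=
  Table.homMk
    { app := fun n => TypeCat.ofHom (Table.suspCell f n.unop.dim)
      naturality := fun a b g => by
        refine ConcreteCategory.hom_ext _ _ fun c => ?_
        exact Table.suspCell_act f g.unop c }

theorem Table.mapCell_suspMap {S T : Table} (f : S ⟶ T) {n : ℕ} (d : S.susp.Pre ⟨n⟩) :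
    Table.mapCell (Table.suspMap f) (Quot.mk _ d) = Table.suspPre f n d :=
  rfl

theorem Table.mapCell_suspMap_pole {S T : Table} (f : S ⟶ T) (e : Bool) :
    Table.mapCell (Table.suspMap f) (S.poleCell e) = T.poleCell e :=
  rfl

theorem Table.suspMap_upCell {S T : Table} (f : S ⟶ T) {n : ℕ} (c : S.Cell n) :
    Table.mapCell (Table.suspMap f) (S.upCell c) = T.upCell (Table.mapCell f c) := by
  induction c using Quot.ind with
  | _ c => rfl

/-- The suspension, as a functor. -/
def Table.suspFunctor : Table ⥤ Table where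
  obj := Table.susp
  map := Table.suspMap
  map_id S := Table.homExtCell fun n d => by
    cases n with
    | zero =>
      obtain ⟨p, γ⟩ := d
      obtain ⟨e, rfl⟩ := Globe.zero_first (k := S.top p) γ
      exact (S.susp_point e p).symm
    | succ n => rfl
  map_comp {R S T} f g := Table.homExtCell fun n d => by
    cases n with
    | zero => rfl
    | succ n =>
      exact ((Table.suspMap_upCell g _).trans
        (congrArg T.upCell (Table.mapCell_comp f g _).symm)).symm

/-- A pole of a suspension. -/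
def Table.pole (T : Table) (e : Bool) : disc 0 ⟶ T.susp := T.susp.ofCell (T.poleCell e)

theorem Table.pole_suspMap {S T : Table} (f : S ⟶ T) (e : Bool) :
    S.pole e ≫ Table.suspMap f = T.pole e :=
  Table.disc_ext ((congrArg (fun c => Table.mapCell (Table.suspMap f) (n := 0) c)
    (Table.ofCell_top S.susp (S.poleCell e))).trans (Table.ofCell_top T.susp (T.poleCell e)).symm)

theorem Table.pole_eq (T : Table) (e : Bool) (p : Fin (T.len + 1)) :
    side e (Nat.succ_pos (T.top p)) ≫ incl T.susp p = T.pole e :=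
  Table.disc_ext (by
    rw [Table.pole, Table.ofCell_top, ← T.susp_point e p]
    rfl)

theorem Table.vertex_susp (T : Table) : T.susp.vertex = T.pole false :=
  Table.disc_ext (by
    rw [Table.vertex, Table.ofCell_top, Table.pole, Table.ofCell_top]
    refine congrArg (Quot.mk _) (Sigma.ext rfl (heq_of_eq ?_))
    show Globe.vertex (T.top 0 + 1) = _
    rw [Globe.vertex, dif_neg (Nat.succ_ne_zero _)]
    rfl)

/-- The comparison from a disc to the suspension of the disc below. -/
def discSusp (n : ℕ) : disc (n + 1) ⟶ (disc n).susp := incl (disc n).susp 0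

/-- The comparison from the suspension of a disc. -/
def suspDisc (n : ℕ) : (disc n).susp ⟶ disc (n + 1) :=
  Table.homOfPre (fun _ d => ⟨0, d.2⟩) (fun _ c d h => by cases h with | glue q g => exact q.elim0)
    (fun _ _ _ _ => rfl)

theorem discSusp_suspDisc (n : ℕ) : discSusp n ≫ suspDisc n = 𝟙 _ := Table.disc_ext rfl

theorem suspDisc_discSusp (n : ℕ) : suspDisc n ≫ discSusp n = 𝟙 _ :=
  Table.homExtCell fun m d => by
    obtain ⟨p, γ⟩ := d
    have hp : p = 0 := Fin.fin_one_eq_zero p
    subst hp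
    rfl

theorem discSusp_incl (T : Table) (p : Fin (T.len + 1)) :
    discSusp (T.top p) ≫ Table.suspMap (incl T p) = incl T.susp p :=
  Table.disc_ext rfl

theorem discSusp_side (e : Bool) {j i : ℕ} (h : j < i) :
    discSusp j ≫ Table.suspMap (side e h) = side e (Nat.succ_lt_succ h) ≫ discSusp i :=
  Table.disc_ext rfl

end

end Vale.Agent.P259
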