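import Vale.Agent.P259.Glob.HomModel

/-!
# P259: contractible models have acyclic categories of elements
-/

namespace Vale.Agent.P259

open CategoryTheory Opposite

noncomputable section

/-- A presheaf, indexed by tables. -/
def Ext.tabPsh (E : Ext) (X : E.Psh) : Elem.Psh E.Tab where
  obj S := X.obj (op (E.i.obj S.unop.T))
  map f x := X.map f.unop.hom.op x
  map_id S x := E.act_id X x
  map_comp f g x := E.act_comp X g.unop.hom f.unop.hom x

/-- Iterate raising the level. -/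
def Ext.iterUp (E : Ext) : ℕ → Ext
  | 0 => E
  | k + 1 => (E.iterUp k).up

theorem Ext.iterUp_contractible (E : Ext) (hE : E.Contractible) : ∀ k, (E.iterUp k).Contractible
  | 0 => hE
  | k + 1 => (E.iterUp k).up_contractible (E.iterUp_contractible hE k)

/-- The tower of the iterated levels. -/
def Ext.tower (E : Ext) : Elem.Tower.{0} where
  C k := (E.iterUp k).Tab
  cat k := Ext.Tab.category _
  susp k := (E.iterUp k).suspData

theorem Ext.homPsh_tabPsh (E : Ext) (X : E.Psh) (a b : E.cells X 0) :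
    E.suspData.homPsh (E.tabPsh X) a b = E.up.tabPsh (E.homUp X a b) :=
  rfl

/-- The two halves glue uniquely in a model. -/
theorem Ext.glues_tabPsh (E : Ext) (X : E.Gpd) : E.suspData.Glues (E.tabPsh X.obj) := by
  intro S T s x h
  change E.at X.obj S.T.susp at s
  change E.at X.obj T.T at x
  change E.act X.obj (E.pole S.T true) s = E.act X.obj (E.v0 T.T) x at h
  show ∃! z : E.at X.obj (S.T.add T.T), E.act X.obj (E.addJoin S.T T.T).inl z = s ∧
    E.act X.obj (E.addJoin S.T T.T).inr z = x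
  obtain ⟨z, hz1, hz2⟩ := (E.addJoin S.T T.T).glue_value X s x h
  exact ⟨z, ⟨hz1, hz2⟩, fun z' hz' => (E.addJoin S.T T.T).value_ext X z' z
    (hz'.1.trans hz1.symm) (hz'.2.trans hz2.symm)⟩

/-- Models that are contractible. -/
def Ext.good (E : Ext) (hE : E.Contractible) : E.tower.Good where
  mem k Y := ∃ X : (E.iterUp k).Gpd, (E.iterUp k).Ctr X.obj ∧ Y = (E.iterUp k).tabPsh X.obj
  point := by
    rintro k _ ⟨X, hX, rfl⟩
    exact hX.nonempty
  glues := by
    rintro k _ ⟨X, -, rfl⟩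
    exact (E.iterUp k).glues_tabPsh X
  hom := by
    rintro k _ ⟨X, hX, rfl⟩ a b
    exact ⟨(E.iterUp k).homGpd X a b, (E.iterUp k).homUp_ctr hX a b, rfl⟩
  yonHom k U a b :=
    ⟨_, ⟨(E.iterUp k).homGpd ((E.iterUp k).yon U.T) a.hom b.hom,
      (E.iterUp k).homUp_ctr (yonCtr _ (E.iterUp_contractible hE k) U.T) _ _, rfl⟩,
      ⟨fun S s => ⟨s.1.hom, congrArg InducedCategory.Hom.hom s.2.1,
        congrArg InducedCategory.Hom.hom s.2.2⟩, fun f s => rfl⟩,
      ⟨fun S s => ⟨InducedCategory.homMk s.1, InducedCategory.hom_ext s.2.1,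
        InducedCategory.hom_ext s.2.2⟩, fun f s => rfl⟩, fun S s => rfl⟩

/-- The categories of elements agree. -/
def Ext.elEquiv (E : Ext) (X : E.Psh) : E.El X ≌ (Cat.El (E.tabPsh X))ᵒᵖ where
  functor :=
    { obj := fun e => op ⟨op ⟨e.T⟩, e.val⟩
      map := fun {e e'} f => Quiver.Hom.op
        (⟨(Ext.Tab.mk' f.hom : (⟨e.T⟩ : E.Tab) ⟶ ⟨e'.T⟩).op, f.w⟩ :
          (⟨op ⟨e'.T⟩, e'.val⟩ : Cat.El (E.tabPsh X)) ⟶ ⟨op ⟨e.T⟩, e.val⟩) }
  inverse :=
    { obj := fun a => ⟨a.unop.pt.unop.T, a.unop.elt⟩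
      map := fun f => ⟨f.unop.1.unop.hom, f.unop.2⟩ }
  unitIso := Iso.refl _
  counitIso := Iso.refl _
  functor_unitIso_comp e := Category.comp_id _

/-- Homology of the two categories of elements. -/
theorem Ext.exact_el_iff (E : Ext) (X : E.Psh) (n : ℕ) :
    (Cat.nerveCx (E.El X)).Exact n ↔ (Cat.chains (E.tabPsh X)).Exact n := by
  rw [← Cat.El.exact_iff (E.tabPsh X) n, ← Cat.exact_op_iff (Cat.El (E.tabPsh X)) n,
    Cat.Cx.exact_iff_subsingleton, Cat.Cx.exact_iff_subsingleton]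
  exact (Equiv.ofBijective _
    (Cat.nerveMap_bijective_of_equivalence (E.elEquiv X) n)).subsingleton_congr

/-- **Contractible models have acyclic categories of elements.** -/
theorem elemAcyclic : Spec.ElemAcyclic := fun E hE X hX k =>
  (E.exact_el_iff X.obj k).2 ((E.good hE).exact k 0 (E.tabPsh X.obj)
    (show ∃ Y : E.Gpd, E.Ctr Y.obj ∧ E.tabPsh X.obj = E.tabPsh Y.obj from ⟨X, hX, rfl⟩))

end

end Vale.Agent.P259
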